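import Vale.Agent.P099.H819.Particles

/-!
# P099: all triangles, final form
-/

set_option linter.all false

open MeasureTheory Set Filter Topology

namespace Vale.Agent.P099

namespace Triangle

variable (T : Triangle)

/-- The invariant functions of the product with a measure preserving flow. -/
theorem invariant_iff {Φ : ℝ → ℂ × ℂ → ℂ × ℂ} (hb : T.IsBilliardFlow Φ)
    (Ω : Type) [MeasurableSpace Ω] (m : Measure Ω) [IsProbabilityMeasure m]
    (Ψ : ℝ → Ω → Ω) (hΨ : MPFlow m Ψ) (f : (ℂ × ℂ) × Ω → ℝ) (hf : Measurable f) :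
    (∀ t, ∀ᵐ z ∂(T.mu.prod m), f (Φ t z.1, Ψ t z.2) = f z) ↔
      ∃ g : ℂ × Ω → ℝ, Measurable g ∧
        (∀ i, ∀ᵐ w ∂(nu.prod m), g (T.refl i w.1, w.2) = g w) ∧
        (∀ t, ∀ᵐ w ∂(nu.prod m), g (w.1, Ψ t w.2) = g w) ∧
        ∀ᵐ z ∂(T.mu.prod m), f z = g (z.1.2, z.2) :=
  ⟨fun h => T.invariant_of hΨ.pflow hb hf h,
    fun ⟨_, _, h1, h2, h3⟩ t => T.invariant_conv hΨ.pflow hb h1 h2 h3 t⟩

end Triangle

end Vale.Agent.P099
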