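import Vale.Agent.P099.H819.Equiv

/-!
# P099: several particles with arbitrary speeds in several triangles
-/

set_option linter.all false

open MeasureTheory Set Filter Topology

namespace Vale.Agent.P099

open WM4

/-- change of speed -/
lemma PFlow.speed {Ω : Type} [MeasurableSpace Ω] {m : Measure Ω} {Ψ : ℝ → Ω → Ω} (h : PFlow m Ψ)
    (c : ℝ) : PFlow m (fun t => Ψ (c * t)) where
  meas := h.meas.comp ((measurable_fst.const_mul c).prodMk measurable_snd)
  mp := fun t => h.mp _
  add := fun s t => by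
    have := h.add (c * s) (c * t)
    rw [← mul_add] at this
    exact this
  zero := by
    have := h.zero
    simpa using this

/-- product of two flows -/
lemma PFlow.prod {Ω Ω' : Type} [MeasurableSpace Ω] [MeasurableSpace Ω'] {m : Measure Ω}
    {m' : Measure Ω'} [IsProbabilityMeasure m] [IsProbabilityMeasure m'] {Ψ : ℝ → Ω → Ω}
    {Ψ' : ℝ → Ω' → Ω'} (h : PFlow m Ψ) (h' : PFlow m' Ψ') :
    PFlow (m.prod m') (fun t z => (Ψ t z.1, Ψ' t z.2)) where
  meas := (h.meas.comp (measurable_fst.prodMk (measurable_fst.comp measurable_snd))).prodMk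
    (h'.meas.comp (measurable_fst.prodMk (measurable_snd.comp measurable_snd)))
  mp := fun t => (h.mp t).prod (h'.mp t)
  add := fun s t => by
    filter_upwards [Measure.quasiMeasurePreserving_fst.ae (h.add s t),
      Measure.quasiMeasurePreserving_snd.ae (h'.add s t)] with z h1 h2
    rw [h1, h2]
  zero := by
    filter_upwards [Measure.quasiMeasurePreserving_fst.ae h.zero,
      Measure.quasiMeasurePreserving_snd.ae h'.zero] with z h1 h2
    rw [h1, h2]

/-- product of finitely many flows with individual speeds -/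
lemma PFlow.pi {n : ℕ} {X : Type} [MeasurableSpace X] {μ : Fin n → Measure X}
    [∀ i, IsProbabilityMeasure (μ i)] {Θ : Fin n → ℝ → X → X} (h : ∀ i, PFlow (μ i) (Θ i))
    (c : Fin n → ℝ) : PFlow (Measure.pi μ) (fun t p i => Θ i (c i * t) (p i)) where
  meas := by
    refine measurable_pi_iff.2 fun i => ?_
    exact (h i).meas.comp ((measurable_fst.const_mul (c i)).prodMk
      ((measurable_pi_apply i).comp measurable_snd))
  mp := fun t => measurePreserving_pi μ μ (fun i => (h i).mp (c i * t))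
  add := fun s t => by
    have h1 : ∀ i, ∀ᵐ p ∂(Measure.pi μ), Θ i (c i * (s + t)) (p i) =
        Θ i (c i * s) (Θ i (c i * t) (p i)) := by
      intro i
      rw [mul_add]
      exact (measurePreserving_eval μ i).quasiMeasurePreserving.ae ((h i).add (c i * s) (c i * t))
    filter_upwards [ae_all_iff.2 h1] with p hp
    funext i
    exact hp i
  zero := by
    have h1 : ∀ i, ∀ᵐ p ∂(Measure.pi μ), Θ i (c i * 0) (p i) = p i := by
      intro i
      rw [mul_zero]
      exact (measurePreserving_eval μ i).quasiMeasurePreserving.ae (h i).zero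
    filter_upwards [ae_all_iff.2 h1] with p hp
    funext i
    exact hp i

/-- transfer of ergodicity along an isomorphism -/
lemma FlowErgodic.of_equiv {X Y : Type} [MeasurableSpace X] [MeasurableSpace Y] {μ : Measure X}
    {ν : Measure Y} (e : X ≃ᵐ Y) (he : MeasurePreserving e μ ν) {Φ : ℝ → X → X} {Φ' : ℝ → Y → Y}
    (hcomm : ∀ t x, e (Φ t x) = Φ' t (e x)) (h : FlowErgodic ν Φ') : FlowErgodic μ Φ := by
  intro A hA hinv
  have h1 : e ⁻¹' (e.symm ⁻¹' A) = A := by
    ext x; simp
  have h2 : ν (e.symm ⁻¹' A) = μ A := by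
    rw [← he.measure_preimage_equiv, h1]
  rw [← h2]
  refine h _ (e.symm.measurable hA) fun t => ?_
  rw [← he.measure_preimage_equiv]
  have h3 : e ⁻¹' (symmDiff (Φ' t ⁻¹' (e.symm ⁻¹' A)) (e.symm ⁻¹' A)) =
      symmDiff (Φ t ⁻¹' A) A := by
    ext x
    simp only [mem_preimage, mem_symmDiff, ← hcomm, MeasurableEquiv.symm_apply_apply]
  rw [h3]
  exact hinv t

/-- a factor of an ergodic product is ergodic -/
lemma FlowErgodic.fst {X Y : Type} [MeasurableSpace X] [MeasurableSpace Y] {μ : Measure X}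
    {ν : Measure Y} [IsProbabilityMeasure μ] [IsProbabilityMeasure ν] {Φ : ℝ → X → X}
    {Ψ : ℝ → Y → Y} (h : FlowErgodic (μ.prod ν) (fun t z => (Φ t z.1, Ψ t z.2))) :
    FlowErgodic μ Φ := by
  intro A hA hinv
  have h2 : (μ.prod ν) (Prod.fst ⁻¹' A) = μ A :=
    measurePreserving_fst.measure_preimage hA.nullMeasurableSet
  rw [← h2]
  refine h _ (measurable_fst hA) fun t => ?_
  have h3 := hinv t
  rw [measure_symmDiff_eq_zero_iff] at h3 ⊢
  filter_upwards [(Measure.quasiMeasurePreserving_fst (μ := μ) (ν := ν)).ae h3] with z hz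
  exact hz

/-- a factor of an ergodic product is ergodic -/
lemma FlowErgodic.eval {n : ℕ} {X : Type} [MeasurableSpace X] {μ : Fin n → Measure X}
    [∀ i, IsProbabilityMeasure (μ i)] {Θ : Fin n → ℝ → X → X}
    (h : FlowErgodic (Measure.pi μ) (fun t p i => Θ i t (p i))) (i : Fin n) :
    FlowErgodic (μ i) (Θ i) := by
  intro A hA hinv
  have he := measurePreserving_eval μ i
  have h2 : (Measure.pi μ) (Function.eval i ⁻¹' A) = μ i A :=
    he.measure_preimage hA.nullMeasurableSet
  rw [← h2]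
  refine h _ (he.measurable hA) fun t => ?_
  have h3 := hinv t
  rw [measure_symmDiff_eq_zero_iff] at h3 ⊢
  filter_upwards [he.quasiMeasurePreserving.ae h3] with z hz
  exact hz

/-- The joint flow of finitely many particles in irrational triangles, times an ergodic flow. -/
theorem particles_aux : ∀ (n : ℕ) (T : Fin n → Triangle), (∀ i, (T i).IsIrrational) →
    ∀ (Θ : Fin n → ℝ → ℂ × ℂ → ℂ × ℂ), (∀ i, PFlow (T i).mu (Θ i)) →
    (∀ i, (T i).IsBilliardFlow (Θ i)) → ∀ c : Fin n → ℝ, (∀ i, c i ≠ 0) →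
    ∀ (Ω : Type) [MeasurableSpace Ω] (m : Measure Ω) [IsProbabilityMeasure m] (Ψ : ℝ → Ω → Ω),
      PFlow m Ψ → FlowErgodic m Ψ →
      FlowErgodic ((Measure.pi fun i => (T i).mu).prod m)
        (fun t z => (fun i => Θ i (c i * t) (z.1 i), Ψ t z.2))
  | 0 => by
    intro T hT Θ hΘ hb c hc Ω _ m _ Ψ hΨ hE
    intro A hA hinv
    set p0 : Fin 0 → ℂ × ℂ := fun i => i.elim0 with hp0
    have hall : ∀ p : Fin 0 → ℂ × ℂ, p = p0 := fun p => funext fun i => i.elim0
    have hprob : ∀ i, IsProbabilityMeasure (T i).mu := fun i => (T i).isProbabilityMeasure_mu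
    set B : Set Ω := {q | (p0, q) ∈ A} with hB
    have hBm : MeasurableSet B := measurable_prodMk_left hA
    have hAB : ∀ z : (Fin 0 → ℂ × ℂ) × Ω, z ∈ A ↔ z.2 ∈ B := by
      rintro ⟨p, q⟩
      rw [hall p]
      rfl
    have hAeq : A = Prod.snd ⁻¹' B := by
      ext z; exact hAB z
    have hsnd := measurePreserving_snd (μ := Measure.pi fun i => (T i).mu) (ν := m)
    have h2 : ((Measure.pi fun i => (T i).mu).prod m) A = m B := by
      rw [hAeq]
      exact hsnd.measure_preimage hBm.nullMeasurableSet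
    rw [h2]
    refine hE B hBm fun t => ?_
    have h3 := hinv t
    have h4 : symmDiff ((fun z : (Fin 0 → ℂ × ℂ) × Ω =>
        ((fun i => Θ i (c i * t) (z.1 i) : Fin 0 → ℂ × ℂ), Ψ t z.2)) ⁻¹' A) A =
        Prod.snd ⁻¹' (symmDiff (Ψ t ⁻¹' B) B) := by
      ext z
      simp only [mem_preimage, mem_symmDiff, hAB]
    rw [h4, hsnd.measure_preimage] at h3
    · exact h3
    · exact (((hΨ.measurable_time t) hBm).symmDiff hBm).nullMeasurableSet
  | n + 1 => by
    intro T hT Θ hΘ hb c hc Ω _ m _ Ψ hΨ hE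
    have hprob : ∀ i, IsProbabilityMeasure (T i).mu := fun i => (T i).isProbabilityMeasure_mu
    -- the remaining particles and the second flow
    have ih := particles_aux n (fun i => T i.succ) (fun i => hT i.succ) (fun i => Θ i.succ)
      (fun i => hΘ i.succ) (fun i => hb i.succ) (fun i => c i.succ) (fun i => hc i.succ)
      Ω m Ψ hΨ hE
    have hP : PFlow (Measure.pi fun i : Fin n => (T i.succ).mu)
        (fun t p i => Θ i.succ (c i.succ * t) (p i)) :=
      PFlow.pi (fun i : Fin n => hΘ i.succ) (fun i => c i.succ)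
    have hPΨ := hP.prod hΨ
    have h0 := (T 0).prod_ergodic (hT 0) (hPΨ.speed (c 0)⁻¹) (ih.speed (inv_ne_zero (hc 0))) (hb 0)
    have h1 := h0.speed (hc 0)
    -- the isomorphism
    set e1 := MeasurableEquiv.piFinSuccAbove (fun _ : Fin (n + 1) => ℂ × ℂ) 0 with he1
    have he1m : MeasurePreserving e1 (Measure.pi fun i => (T i).mu)
        ((T 0).mu.prod (Measure.pi fun i : Fin n => (T i.succ).mu)) :=
      measurePreserving_piFinSuccAbove (fun i => (T i).mu) 0
    set e2 : (Fin (n + 1) → ℂ × ℂ) × Ω ≃ᵐ ((ℂ × ℂ) × (Fin n → ℂ × ℂ)) × Ω :=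
      MeasurableEquiv.prodCongr e1 (MeasurableEquiv.refl Ω) with he2
    have he2m : MeasurePreserving e2 ((Measure.pi fun i => (T i).mu).prod m)
        (((T 0).mu.prod (Measure.pi fun i : Fin n => (T i.succ).mu)).prod m) :=
      he1m.prod (MeasurePreserving.id m)
    set e3 : ((ℂ × ℂ) × (Fin n → ℂ × ℂ)) × Ω ≃ᵐ (ℂ × ℂ) × ((Fin n → ℂ × ℂ) × Ω) :=
      MeasurableEquiv.prodAssoc with he3
    have he3m : MeasurePreserving e3
        (((T 0).mu.prod (Measure.pi fun i : Fin n => (T i.succ).mu)).prod m)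
        ((T 0).mu.prod ((Measure.pi fun i : Fin n => (T i.succ).mu).prod m)) :=
      measurePreserving_prodAssoc _ _ _
    refine FlowErgodic.of_equiv (e2.trans e3) (he3m.comp he2m) ?_ h1
    intro t z
    obtain ⟨p, q⟩ := z
    have hc0 : (c 0)⁻¹ * (c 0 * t) = t := by
      rw [← mul_assoc, inv_mul_cancel₀ (hc 0), one_mul]
    show ((Θ 0 (c 0 * t) (p 0)), ((fun i : Fin n => Θ i.succ (c i.succ * t) (p i.succ)), Ψ t q)) =
      (Θ 0 (c 0 * t) (p 0), ((fun i : Fin n => Θ i.succ (c i.succ * ((c 0)⁻¹ * (c 0 * t))) (p i.succ)),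
        Ψ ((c 0)⁻¹ * (c 0 * t)) q))
    rw [hc0]

/-- Finitely many particles with arbitrary nonzero speeds. -/
theorem particles (n : ℕ) (T : Fin n → Triangle) (Φ : Fin n → ℝ → ℂ × ℂ → ℂ × ℂ)
    (hΦ : ∀ i, (T i).IsBilliardFlow (Φ i)) (c : Fin n → ℝ) (hc : ∀ i, c i ≠ 0) :
    (FlowErgodic (Measure.pi fun i => (T i).mu) (fun t p i => Φ i (c i * t) (p i)) ↔
      ∀ i, (T i).IsIrrational) ∧
    (FlowWeakMixing (Measure.pi fun i => (T i).mu) (fun t p i => Φ i (c i * t) (p i)) ↔
      ∀ i, (T i).IsIrrational) := by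
  have hprob : ∀ i, IsProbabilityMeasure (T i).mu := fun i => (T i).isProbabilityMeasure_mu
  choose Θ hΘ hb hu using fun i => (T i).exists_good_flow
  have hae : ∀ t, (fun (p : Fin n → ℂ × ℂ) i => Θ i (c i * t) (p i)) =ᵐ[Measure.pi fun i => (T i).mu]
      (fun p i => Φ i (c i * t) (p i)) := by
    intro t
    have h1 : ∀ i, ∀ᵐ p ∂(Measure.pi fun i => (T i).mu), Φ i (c i * t) (p i) =
        Θ i (c i * t) (p i) := fun i =>
      (measurePreserving_eval (fun i => (T i).mu) i).quasiMeasurePreserving.ae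
        (hu i (Φ i) (hΦ i) (c i * t))
    filter_upwards [ae_all_iff.2 h1] with p hp
    funext i
    exact (hp i).symm
  have hP : PFlow (Measure.pi fun i => (T i).mu) (fun t p i => Θ i (c i * t) (p i)) :=
    PFlow.pi hΘ c
  have back : FlowErgodic (Measure.pi fun i => (T i).mu) (fun t p i => Φ i (c i * t) (p i)) →
      ∀ i, (T i).IsIrrational := by
    intro h i
    have h1 := FlowErgodic.eval (Θ := fun i t => Φ i (c i * t)) h i
    have h2 := h1.speed (inv_ne_zero (hc i))
    have h3 : (fun t => (fun t => Φ i (c i * t)) ((c i)⁻¹ * t)) = Φ i := by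
      funext t
      show Φ i (c i * ((c i)⁻¹ * t)) = Φ i t
      rw [← mul_assoc, mul_inv_cancel₀ (hc i), one_mul]
    rw [h3] at h2
    exact ((T i).ergodic_iff (hΦ i)).1 h2
  have hunit : FlowErgodic (Measure.dirac ()) (fun (_ : ℝ) (q : Unit) => q) := by
    intro B hB _
    by_cases hb : () ∈ B
    · right; simp [Measure.dirac_apply' _ hB, hb]
    · left; simp [Measure.dirac_apply' _ hB, hb]
  have hE : (∀ i, (T i).IsIrrational) →
      FlowErgodic (Measure.pi fun i => (T i).mu) (fun t p i => Θ i (c i * t) (p i)) := by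
    intro hT
    exact FlowErgodic.fst (ν := Measure.dirac ()) (Ψ := fun (_ : ℝ) (q : Unit) => q)
      (particles_aux n T hT Θ hΘ hb c hc Unit (Measure.dirac ()) (fun _ q => q)
        Triangle.pflow_unit hunit)
  refine ⟨⟨back, fun hT => (hE hT).congr hae⟩, ⟨fun h => back (FlowErgodic.fst
    (ν := Measure.pi fun i => (T i).mu) (Ψ := fun t p i => Φ i (c i * t) (p i)) h), fun hT => ?_⟩⟩
  have h1 := particles_aux n T hT Θ hΘ hb c hc (Fin n → ℂ × ℂ) (Measure.pi fun i => (T i).mu)
    (fun t p i => Θ i (c i * t) (p i)) hP (hE hT)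
  refine FlowErgodic.congr h1 fun t => ?_
  have h2 := Measure.quasiMeasurePreserving_fst (μ := Measure.pi fun i => (T i).mu)
    (ν := Measure.pi fun i => (T i).mu) |>.ae (hae t)
  have h3 := Measure.quasiMeasurePreserving_snd (μ := Measure.pi fun i => (T i).mu)
    (ν := Measure.pi fun i => (T i).mu) |>.ae (hae t)
  filter_upwards [h2, h3] with z g1 g2
  exact Prod.ext g1 g2

end Vale.Agent.P099
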