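import Vale.Agent.P099.H819.Rel

/-!
# P099: the structure theorem for all triangles
-/

set_option linter.all false

open MeasureTheory Set Filter Topology

namespace Vale.Agent.P099

variable {Ω : Type} [MeasurableSpace Ω]

open WM4

lemma dt_add_left (a b u : ℂ) : dt (a + b) u = dt a u + dt b u := by
  simp only [dt, Complex.add_re, Complex.add_im]; ring

lemma dt_sub_left (a b u : ℂ) : dt (a - b) u = dt a u - dt b u := by
  simp only [dt, Complex.sub_re, Complex.sub_im]; ring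

lemma dt_real_mul_left (r : ℝ) (a u : ℂ) : dt ((r : ℂ) * a) u = r * dt a u := by
  simp only [dt, Complex.re_ofReal_mul, Complex.im_ofReal_mul]; ring

/-- two independent vectors have incommensurable projections in almost every direction -/
lemma ae_irrational_ratio {τ a : ℂ} (hτ : τ ≠ 0) (ha : ‖a‖ = 1) (h1 : a ≠ 1) (h2 : a ≠ -1) :
    ∀ᵐ u ∂nu, Irrational (dt τ u / dt (a⁻¹ * τ) u) := by
  have ha0 : a ≠ 0 := by
    intro h; rw [h, norm_zero] at ha; exact zero_ne_one ha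
  have hr : ∀ r : ℚ, τ - ((r : ℝ) : ℂ) * (a⁻¹ * τ) ≠ 0 := by
    intro r h
    have h3 : τ * (a - ((r : ℝ) : ℂ)) = 0 := by
      have h4 : a * (τ - ((r : ℝ) : ℂ) * (a⁻¹ * τ)) = 0 := by rw [h, mul_zero]
      have h5 : a * (τ - ((r : ℝ) : ℂ) * (a⁻¹ * τ)) = τ * (a - ((r : ℝ) : ℂ)) := by
        field_simp
      rw [← h5, h4]
    have h6 : a = ((r : ℝ) : ℂ) := sub_eq_zero.1 ((mul_eq_zero.1 h3).resolve_left hτ)
    rw [h6, Complex.norm_real, Real.norm_eq_abs] at ha
    rcases eq_or_eq_neg_of_abs_eq ha with h7 | h7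
    · apply h1; rw [h6, h7]; simp
    · apply h2; rw [h6, h7]; simp
  have hall : ∀ᵐ u ∂nu, ∀ r : ℚ, dt (τ - ((r : ℝ) : ℂ) * (a⁻¹ * τ)) u ≠ 0 := by
    rw [ae_all_iff]
    intro r
    exact ae_dt_ne (hr r)
  have hne : a⁻¹ * τ ≠ 0 := mul_ne_zero (inv_ne_zero ha0) hτ
  filter_upwards [hall, ae_dt_ne hne] with u hu hy
  rintro ⟨r, hr'⟩
  apply hu r
  rw [dt_sub_left, dt_real_mul_left, hr', div_mul_cancel₀ _ hy, sub_self]

namespace Triangle

variable (T : Triangle)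

lemma refl_refl_eq_rot_inv (i : Fin 3) (u : ℂ) :
    T.refl (i + 1) (T.refl (i + 2) u) = (T.rot i)⁻¹ * u := by
  have hn := T.norm_rot i
  have h0 : T.rot i ≠ 0 := by
    intro h0
    rw [h0, norm_zero] at hn
    exact zero_ne_one hn
  have h1 : T.refl (i + 2) (T.refl (i + 1) (T.refl (i + 1) (T.refl (i + 2) u))) = u := by
    rw [T.refl_refl, T.refl_refl]
  rw [T.refl_refl_eq_rot] at h1
  rw [eq_inv_mul_iff_mul_eq₀ h0]
  exact h1

/-- The straightened invariant function is invariant under all times. -/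
theorem all_times_of_rel {m : Measure Ω} [IsProbabilityMeasure m] {Ψ : ℝ → Ω → Ω}
    (hΨ : PFlow m Ψ) {F : ℂ × Ω → ℝ} (hFm : Measurable F) {C : ℝ} (hC : ∀ ω, |F ω| ≤ C)
    {k : Fin 3} (hk1 : T.rot k ≠ 1) (hk2 : T.rot k ≠ -1)
    (hR : ∀ i, RelA m Ψ F (T.refl i) (fun u => dt (T.R i (T.P k) - T.P k) u)) :
    ∀ᵐ u ∂nu, ∀ s : ℝ, ∀ᵐ q ∂m, F (u, Ψ s q) = F (u, q) := by
  set v : ℂ := T.R k (T.P k) - T.P k with hv
  have hv0 : v ≠ 0 := T.R_P_ne k
  set a : ℂ := T.rot k with ha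
  set b : ℂ := T.rot (k + 2) with hb
  have hna : ‖a‖ = 1 := T.norm_rot k
  have hnb : ‖b‖ = 1 := T.norm_rot (k + 2)
  have ha0 : a ≠ 0 := by intro h; rw [h, norm_zero] at hna; exact zero_ne_one hna
  have hb0 : b ≠ 0 := by intro h; rw [h, norm_zero] at hnb; exact zero_ne_one hnb
  have hnai : ‖a⁻¹‖ = 1 := by rw [norm_inv, hna, inv_one]
  have hnbi : ‖b⁻¹‖ = 1 := by rw [norm_inv, hnb, inv_one]
  have hf1 : ∀ i : Fin 3, i + 1 ≠ i := by decide
  have hf2 : ∀ i : Fin 3, i + 2 ≠ i := by decide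
  have e1 : ∀ i : Fin 3, i + 2 + 2 = i + 1 := by decide
  have e2 : ∀ i : Fin 3, i + 2 + 1 = i := by decide
  have mdt : ∀ w : ℂ, Measurable fun u : ℂ => dt w u := fun w =>
    measurable_dt.comp (measurable_const.prodMk measurable_id)
  have m0 : Measurable fun _ : ℂ => (0:ℝ) := measurable_const
  have mre : ∀ i, Measurable (T.refl i) := fun i => (T.continuous_refl i).measurable
  have mpr := T.measurePreserving_refl
  have r1 : RelA m Ψ F (T.refl (k + 1)) (fun _ => 0) :=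
    (hR (k + 1)).congr (fun _ => rfl) (fun u => by
      rw [T.R_P_other (k + 1) k (hf1 k), sub_self]; simp [dt])
  have r2 : RelA m Ψ F (T.refl (k + 2)) (fun _ => 0) :=
    (hR (k + 2)).congr (fun _ => rfl) (fun u => by
      rw [T.R_P_other (k + 2) k (hf2 k), sub_self]; simp [dt])
  have r3 : RelA m Ψ F (T.refl k) (fun u => dt v u) := hR k
  -- the four rotations
  have hα : RelA m Ψ F (fun u => a * u) (fun _ => 0) :=
    (r1.comp hΨ hFm (mpr (k + 1)) (mre (k + 2)) m0 m0 r2).congr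
      (fun u => T.refl_refl_eq_rot k u) (fun u => by simp)
  have hα' : RelA m Ψ F (fun u => a⁻¹ * u) (fun _ => 0) :=
    (r2.comp hΨ hFm (mpr (k + 2)) (mre (k + 1)) m0 m0 r1).congr
      (fun u => T.refl_refl_eq_rot_inv k u) (fun u => by simp)
  have hβ : RelA m Ψ F (fun u => b * u) (fun u => dt v u) := by
    refine (r3.comp hΨ hFm (mpr k) (mre (k + 1)) (mdt v) m0 r1).congr (fun u => ?_)
      (fun u => by simp)
    have := T.refl_refl_eq_rot (k + 2) u
    rw [e1, e2] at this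
    exact this
  have hβ' : RelA m Ψ F (fun u => b⁻¹ * u) (fun u => - dt (b * v) u) := by
    have h4 : ∀ u, T.refl k (T.refl (k + 1) u) = b⁻¹ * u := by
      intro u
      have := T.refl_refl_eq_rot_inv (k + 2) u
      rw [e1, e2] at this
      exact this
    refine (r1.comp hΨ hFm (mpr (k + 1)) (mre k) m0 (mdt v) r3).congr h4 (fun u => ?_)
    have h5 : dt v (T.refl k (T.refl (k + 1) u)) = - dt v (T.refl (k + 1) u) :=
      T.shift_refl k (T.P k) _
    rw [h4, dt_mul_unit hnbi, inv_inv] at h5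
    linarith
  -- the commutator
  set τ : ℂ := b * (a * v) - b * v with hτ
  have hτ0 : τ ≠ 0 := by
    have : τ = b * v * (a - 1) := by rw [hτ]; ring
    rw [this]
    exact mul_ne_zero (mul_ne_zero hb0 hv0) (sub_ne_zero.2 hk1)
  have mpm : ∀ {c : ℂ}, ‖c‖ = 1 → MeasurePreserving (fun u => c * u) nu nu := fun hc =>
    measurePreserving_mul hc
  have mm : ∀ c : ℂ, Measurable (fun u : ℂ => c * u) := fun c => measurable_const_mul c
  have g1 := hβ'.comp hΨ hFm (mpm hnbi) (mm a⁻¹) ((mdt _).neg) m0 hα'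
  have g2 := g1.comp hΨ hFm ((mpm hnai).comp (mpm hnbi)) (mm b)
    (m0.add ((mdt _).neg)) (mdt v) hβ
  have g3 := g2.comp hΨ hFm ((mpm hnb).comp ((mpm hnai).comp (mpm hnbi))) (mm a)
    (((mdt v).comp ((mm a⁻¹).comp (mm b⁻¹))).add (m0.add ((mdt _).neg))) m0 hα
  have hγ : RelA m Ψ F (fun u => u) (fun u => dt τ u) := by
    refine g3.congr (fun u => ?_) (fun u => ?_)
    · show a * (b * (a⁻¹ * (b⁻¹ * u))) = u
      field_simp
    · show 0 + (dt v (a⁻¹ * (b⁻¹ * u)) + (0 + -dt (b * v) u)) = dt τ u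
      rw [dt_mul_unit hnai, dt_mul_unit hnbi, inv_inv, inv_inv, hτ, dt_sub_left]
      ring
  -- its conjugate
  have g4 := hα.comp hΨ hFm (mpm hna) measurable_id m0 (mdt τ) hγ
  have g5 := g4.comp hΨ hFm (mpm hna) (mm a⁻¹) (((mdt τ).comp (mm a)).add m0) m0 hα'
  have hδ : RelA m Ψ F (fun u => u) (fun u => dt (a⁻¹ * τ) u) := by
    refine g5.congr (fun u => ?_) (fun u => ?_)
    · show a⁻¹ * (a * u) = u
      field_simp
    · show 0 + (dt τ (a * u) + 0) = dt (a⁻¹ * τ) u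
      rw [dt_mul_unit hna]
      ring
  have k1 : ∀ᵐ u ∂nu, ∀ᵐ q ∂m, F (u, Ψ (dt τ u) q) = F (u, q) := Measure.ae_ae_of_ae_prod hγ
  have k2 : ∀ᵐ u ∂nu, ∀ᵐ q ∂m, F (u, Ψ (dt (a⁻¹ * τ) u) q) = F (u, q) :=
    Measure.ae_ae_of_ae_prod hδ
  filter_upwards [k1, k2, ae_irrational_ratio hτ0 hna hk1 hk2] with u h1 h2 h3
  intro s
  exact hΨ.all_times (f := fun q => F (u, q)) (hFm.comp (measurable_const.prodMk measurable_id))
    (C := C) (fun q => hC _) h1 h2 h3 s

end Triangle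

end Vale.Agent.P099
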