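import Vale.Agent.P099.Defs

open MeasureTheory

namespace Vale.Agent.P099

/-- A measurable flow `Ψ` on the measure space `(Ω, m)` (flow equations almost everywhere) which
preserves `m`. -/
structure MPFlow {Ω : Type} [MeasurableSpace Ω] (m : Measure Ω) (Ψ : ℝ → Ω → Ω) : Prop where
  measurable : Measurable fun z : ℝ × Ω => Ψ z.1 z.2
  preserving : ∀ t, MeasurePreserving (Ψ t) m m
  add : ∀ s t, ∀ᵐ q ∂m, Ψ (s + t) q = Ψ s (Ψ t q)
  zero : ∀ᵐ q ∂m, Ψ 0 q = q

end Vale.Agent.P099
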