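import Vale.Agent.P099.H819.Rational

/-!
# P099: ergodic = weakly mixing = irrational; products with ergodic flows; eigenvalues
-/

set_option linter.all false

open MeasureTheory Set Filter Topology

namespace Vale.Agent.P099

open WM4

variable {Ω : Type} [MeasurableSpace Ω]

/-- ergodicity only depends on the flow up to null sets -/
lemma FlowErgodic.congr {X : Type} [MeasurableSpace X] {μ : Measure X} {Φ Φ' : ℝ → X → X}
    (h : FlowErgodic μ Φ) (hae : ∀ t, Φ t =ᵐ[μ] Φ' t) : FlowErgodic μ Φ' := by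
  intro A hA hinv
  refine h A hA fun t => ?_
  have h1 := hinv t
  rw [measure_symmDiff_eq_zero_iff] at h1 ⊢
  filter_upwards [h1, hae t] with p g1 g2
  rw [← g1]
  show (Φ t p ∈ A) = (Φ' t p ∈ A)
  rw [g2]

/-- change of speed -/
lemma FlowErgodic.speed {X : Type} [MeasurableSpace X] {μ : Measure X} {Φ : ℝ → X → X}
    (h : FlowErgodic μ Φ) {c : ℝ} (hc : c ≠ 0) : FlowErgodic μ (fun t => Φ (c * t)) := by
  intro A hA hinv
  refine h A hA fun t => ?_
  have h1 := hinv (t / c)
  have h2 : (fun t => Φ (c * t)) (t / c) = Φ t := by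
    show Φ (c * (t / c)) = Φ t
    rw [mul_div_cancel₀ _ hc]
  rwa [h2] at h1

namespace Triangle

variable (T : Triangle)

/-- the product of the flow of an irrational triangle with an ergodic flow is ergodic -/
theorem prod_ergodic (hT : T.IsIrrational) {m : Measure Ω} [IsProbabilityMeasure m]
    {Ψ : ℝ → Ω → Ω} (hΨ : PFlow m Ψ) (hE : FlowErgodic m Ψ)
    {Φ : ℝ → ℂ × ℂ → ℂ × ℂ} (hb : T.IsBilliardFlow Φ) :
    FlowErgodic (T.mu.prod m) (fun t z => (Φ t z.1, Ψ t z.2)) := by
  have hprob : IsProbabilityMeasure T.mu := T.isProbabilityMeasure_mu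
  intro A hA hinv
  set f : (ℂ × ℂ) × Ω → ℝ := A.indicator (fun _ => (1:ℝ)) with hf
  have mf : Measurable f := measurable_const.indicator hA
  have hfinv : ∀ t, ∀ᵐ z ∂(T.mu.prod m), f (Φ t z.1, Ψ t z.2) = f z := by
    intro t
    filter_upwards [ae_iff_of_symmDiff (hinv t)] with z hz
    have hz' : (Φ t z.1, Ψ t z.2) ∈ A ↔ z ∈ A := hz
    simp only [hf]
    by_cases hA' : z ∈ A
    · rw [indicator_of_mem hA', indicator_of_mem (hz'.mpr hA')]
    · rw [indicator_of_notMem hA', indicator_of_notMem (fun h => hA' (hz'.mp h))]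
  have hC : ∀ z, |f z| ≤ 1 := by
    intro z
    by_cases hz : z ∈ A
    · simp [hf, hz]
    · simp [hf, hz]
  obtain ⟨g, mg, rg, ig, hg⟩ := T.invariant_bdd hΨ hb mf hC hfinv
  -- truncate `g`
  set g' : ℂ × Ω → ℝ := fun ω => max (-1) (min 1 (g ω)) with hg'
  have mg' : Measurable g' := measurable_const.max (measurable_const.min mg)
  have bg' : ∃ C, ∀ ω, |g' ω| ≤ C := ⟨1, fun ω => by
    rw [abs_le]
    exact ⟨le_max_left _ _, max_le (by norm_num) (min_le_left _ _)⟩⟩
  obtain ⟨k, hk⟩ := hT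
  obtain ⟨ζ, hζ1, hζ2, hζ3⟩ := T.exists_rot k hk
  have hrot : ∀ᵐ ω ∂(nu.prod m), g' (ζ * ω.1, ω.2) = g' ω := by
    have hmp : MeasurePreserving (fun ω : ℂ × Ω => (T.refl (k + 2) ω.1, ω.2))
        (nu.prod m) (nu.prod m) :=
      (T.measurePreserving_refl (k + 2)).prod (MeasurePreserving.id m)
    filter_upwards [hmp.quasiMeasurePreserving.ae (rg (k + 1)), rg (k + 2)] with ω h3 h4
    have h5 : g (ζ * ω.1, ω.2) = g ω := by
      rw [← hζ3]
      exact h3.trans h4
    simp only [hg']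
    rw [h5]
  obtain ⟨h, mh, -, hh⟩ := const_of_rot' hζ1 hζ2 g' mg' bg' hrot
  have hAh : ∀ᵐ z ∂(T.mu.prod m), f z = h z.2 := by
    have h1 := (T.mp_dir m).quasiMeasurePreserving.ae hh
    filter_upwards [hg, h1] with z g1 g2
    have h3 : g' (z.1.2, z.2) = h z.2 := g2
    rw [← h3]
    simp only [hg']
    rw [← g1]
    by_cases hz : z ∈ A
    · simp [hf, hz]
    · simp [hf, hz]
  have hhinv : ∀ t, ∀ᵐ q ∂m, h (Ψ t q) = h q := by
    intro t
    have h1 : MeasurePreserving (fun ω : ℂ × Ω => (ω.1, Ψ t ω.2)) (nu.prod m) (nu.prod m) :=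
      (MeasurePreserving.id nu).prod (hΨ.mp t)
    have h2 := h1.quasiMeasurePreserving.ae hh
    have h3 : ∀ᵐ ω ∂(nu.prod m), h (Ψ t ω.2) = h ω.2 := by
      filter_upwards [h2, hh, ig t] with ω a1 a2 a3
      have a4 : g' (ω.1, Ψ t ω.2) = h (Ψ t ω.2) := a1
      rw [← a4, ← a2]
      simp only [hg']
      rw [a3]
    have h4 := Measure.ae_ae_of_ae_prod h3
    exact h4.exists.choose_spec
  set B : Set Ω := {q | h q = 1} with hB
  have hBm : MeasurableSet B := measurableSet_eq_fun mh measurable_const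
  have hBinv : ∀ t, m (symmDiff (Ψ t ⁻¹' B) B) = 0 := by
    intro t
    rw [measure_symmDiff_eq_zero_iff]
    filter_upwards [hhinv t] with q hq
    apply propext
    show h (Ψ t q) = 1 ↔ h q = 1
    rw [hq]
  rcases hE B hBm hBinv with h0 | h1
  · left
    rw [measure_eq_zero_iff_ae_notMem]
    have h2 : ∀ᵐ q ∂m, q ∉ B := measure_eq_zero_iff_ae_notMem.1 h0
    have h3 : ∀ᵐ z ∂(T.mu.prod m), z.2 ∉ B := Measure.quasiMeasurePreserving_snd.ae h2
    filter_upwards [hAh, h3] with z a1 a2 hz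
    apply a2
    show h z.2 = 1
    rw [← a1]
    simp [hf, hz]
  · right
    have h2 : ∀ᵐ q ∂m, q ∈ B := by
      have := (prob_compl_eq_zero_iff hBm).2 h1
      exact mem_ae_iff.2 this
    have h3 : ∀ᵐ z ∂(T.mu.prod m), z.2 ∈ B := Measure.quasiMeasurePreserving_snd.ae h2
    rw [← prob_compl_eq_zero_iff hA]
    rw [measure_eq_zero_iff_ae_notMem]
    filter_upwards [hAh, h3] with z a1 a2 hz
    have a3 : h z.2 = 1 := a2
    rw [← a1] at a3
    simp [hf] at a3
    exact hz a3

/-- the flow is ergodic if and only if the triangle is irrational -/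
theorem ergodic_iff {Φ : ℝ → ℂ × ℂ → ℂ × ℂ} (hb : T.IsBilliardFlow Φ) :
    FlowErgodic T.mu Φ ↔ T.IsIrrational := by
  refine ⟨fun h => ?_, fun hT => T.ergodic_flow hT hb⟩
  by_contra hT
  obtain ⟨A, hA, h0, h1, hinv⟩ := T.exists_inv_set hT
  rcases h A hA (hinv Φ hb) with h2 | h2
  · exact h0 h2
  · exact h1 h2

/-- the flow is weakly mixing if and only if the triangle is irrational -/
theorem weakMixing_iff {Φ : ℝ → ℂ × ℂ → ℂ × ℂ} (hb : T.IsBilliardFlow Φ) :
    FlowWeakMixing T.mu Φ ↔ T.IsIrrational := by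
  have hprob : IsProbabilityMeasure T.mu := T.isProbabilityMeasure_mu
  refine ⟨fun h => ?_, fun hT => ?_⟩
  · by_contra hT
    obtain ⟨A, hA, h0, h1, hinv⟩ := T.exists_inv_set hT
    have h2 : (T.mu.prod T.mu) (Prod.fst ⁻¹' A) = T.mu A :=
      measurePreserving_fst.measure_preimage hA.nullMeasurableSet
    have h5 : ∀ t, (T.mu.prod T.mu) (symmDiff ((fun p : (ℂ × ℂ) × (ℂ × ℂ) => (Φ t p.1, Φ t p.2)) ⁻¹'
        (Prod.fst ⁻¹' A)) (Prod.fst ⁻¹' A)) = 0 := by
      intro t
      have h3 := hinv Φ hb t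
      rw [measure_symmDiff_eq_zero_iff] at h3 ⊢
      have h4 := (Measure.quasiMeasurePreserving_fst (μ := T.mu) (ν := T.mu)).ae h3
      filter_upwards [h4] with z hz
      exact hz
    rcases h (Prod.fst ⁻¹' A) (measurable_fst hA) h5 with h3 | h3
    · rw [h2] at h3; exact h0 h3
    · rw [h2] at h3; exact h1 h3
  · obtain ⟨Ψ, hΨ, -, hu⟩ := T.exists_good_flow
    exact T.weakMixing_of_good hT hb hΨ (hu Φ hb)

/-- products with ergodic flows characterise irrational triangles -/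
theorem prod_ergodic_iff {Φ : ℝ → ℂ × ℂ → ℂ × ℂ} (hb : T.IsBilliardFlow Φ) :
    (∀ (Ω : Type) [MeasurableSpace Ω] (m : Measure Ω) [IsProbabilityMeasure m] (Ψ : ℝ → Ω → Ω),
      MPFlow m Ψ → FlowErgodic m Ψ →
        FlowErgodic (T.mu.prod m) (fun t z => (Φ t z.1, Ψ t z.2))) ↔ T.IsIrrational := by
  have hprob : IsProbabilityMeasure T.mu := T.isProbabilityMeasure_mu
  refine ⟨fun h => ?_, fun hT Ω _ m _ Ψ hΨ hE => T.prod_ergodic hT hΨ.pflow hE hb⟩
  by_contra hT
  obtain ⟨A, hA, h0, h1, hinv⟩ := T.exists_inv_set hT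
  have h2 := h Unit (Measure.dirac ()) (fun _ q => q) pflow_unit.mpflow (by
    intro B hB _
    by_cases hb : () ∈ B
    · right; simp [Measure.dirac_apply' _ hB, hb]
    · left; simp [Measure.dirac_apply' _ hB, hb])
  have h3 : (T.mu.prod (Measure.dirac ())) (Prod.fst ⁻¹' A) = T.mu A :=
    measurePreserving_fst.measure_preimage hA.nullMeasurableSet
  have h7 : ∀ t, (T.mu.prod (Measure.dirac ())) (symmDiff
      ((fun z : (ℂ × ℂ) × Unit => (Φ t z.1, z.2)) ⁻¹' (Prod.fst ⁻¹' A)) (Prod.fst ⁻¹' A)) = 0 := by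
    intro t
    have h5 := hinv Φ hb t
    rw [measure_symmDiff_eq_zero_iff] at h5 ⊢
    have h6 := (Measure.quasiMeasurePreserving_fst (μ := T.mu) (ν := Measure.dirac ())).ae h5
    filter_upwards [h6] with z hz
    exact hz
  rcases h2 (Prod.fst ⁻¹' A) (measurable_fst hA) h7 with h4 | h4
  · rw [h3] at h4; exact h0 h4
  · rw [h3] at h4; exact h1 h4

/-- the rotation flow on the circle of directions -/
lemma pflow_rot (lam : ℝ) : PFlow nu (fun t q => Complex.exp (-(lam * t : ℝ) * Complex.I) * q) where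
  meas := by fun_prop
  mp := fun t => measurePreserving_mul (by
    rw [Complex.norm_exp]; simp)
  add := fun s t => ae_of_all _ fun q => by
    rw [← mul_assoc, ← Complex.exp_add]
    congr 2
    push_cast; ring
  zero := ae_of_all _ fun q => by simp

/-- The flow of a triangle, rational or not, has no eigenvalue except zero. -/
theorem no_eigenvalue {Φ : ℝ → ℂ × ℂ → ℂ × ℂ} (hb : T.IsBilliardFlow Φ) {lam : ℝ}
    (hlam : lam ≠ 0) {f : ℂ × ℂ → ℂ} (hf : Measurable f)
    (hinv : ∀ t : ℝ, ∀ᵐ p ∂T.mu, f (Φ t p) = Complex.exp ((lam * t : ℝ) * Complex.I) * f p) :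
    ∀ᵐ p ∂T.mu, f p = 0 := by
  have hprob : IsProbabilityMeasure T.mu := T.isProbabilityMeasure_mu
  set h : (ℂ × ℂ) × ℂ → ℝ := fun z => (f z.1 * z.2).re with hh
  have mh : Measurable h :=
    Complex.measurable_re.comp ((hf.comp measurable_fst).mul measurable_snd)
  obtain ⟨g, mg, -, ig, hg⟩ := T.invariant_of (pflow_rot lam) hb mh (fun t => by
    have h1 : ∀ᵐ z ∂(T.mu.prod nu), f (Φ t z.1) = Complex.exp ((lam * t : ℝ) * Complex.I) * f z.1 :=
      Measure.quasiMeasurePreserving_fst.ae (hinv t)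
    filter_upwards [h1] with z hz
    simp only [hh]
    rw [hz]
    congr 1
    have h2 : Complex.exp ((lam * t : ℝ) * Complex.I) * Complex.exp (-(lam * t : ℝ) * Complex.I) = 1 := by
      rw [← Complex.exp_add, ← Complex.exp_zero]
      congr 1; ring
    linear_combination (f z.1 * z.2) * h2)
  -- compare the values at `q` and at a rotated `q`
  have key : ∀ s : ℝ, ∀ᵐ z ∂(T.mu.prod nu),
      (f z.1 * (Complex.exp (-(lam * s : ℝ) * Complex.I) * z.2)).re = (f z.1 * z.2).re := by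
    intro s
    have h1 : MeasurePreserving
        (fun z : (ℂ × ℂ) × ℂ => (z.1, Complex.exp (-(lam * s : ℝ) * Complex.I) * z.2))
        (T.mu.prod nu) (T.mu.prod nu) := (MeasurePreserving.id _).prod ((pflow_rot lam).mp s)
    have h2 := h1.quasiMeasurePreserving.ae hg
    have h3 := (T.mp_dir nu).quasiMeasurePreserving.ae (ig s)
    filter_upwards [hg, h2, h3] with z a1 a2 a3
    have a2' : (f z.1 * (Complex.exp (-(lam * s : ℝ) * Complex.I) * z.2)).re =
      g (z.1.2, Complex.exp (-(lam * s : ℝ) * Complex.I) * z.2) := a2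
    have a3' : g (z.1.2, Complex.exp (-(lam * s : ℝ) * Complex.I) * z.2) = g (z.1.2, z.2) := a3
    rw [a2', a3', ← a1]
  have k1 := key (Real.pi / lam)
  have k2 := key (Real.pi / 2 / lam)
  have e1 : Complex.exp (-(lam * (Real.pi / lam) : ℝ) * Complex.I) = -1 := by
    rw [mul_div_cancel₀ _ hlam]
    rw [show (-(Real.pi : ℂ) * Complex.I) = -(Real.pi * Complex.I) by ring, Complex.exp_neg,
      Complex.exp_pi_mul_I]
    norm_num
  have e2 : Complex.exp (-(lam * (Real.pi / 2 / lam) : ℝ) * Complex.I) = -Complex.I := by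
    rw [mul_div_cancel₀ _ hlam]
    rw [show (-((Real.pi / 2 : ℝ) : ℂ) * Complex.I) = -(((Real.pi / 2 : ℝ) : ℂ) * Complex.I) by ring,
      Complex.exp_neg, Complex.exp_mul_I, ← Complex.ofReal_cos, ← Complex.ofReal_sin]
    simp
  rw [e1] at k1
  rw [e2] at k2
  have hn : ∀ᵐ z ∂(T.mu.prod nu), ‖z.2‖ = 1 := Measure.quasiMeasurePreserving_snd.ae ae_norm
  have h5 : ∀ᵐ z ∂(T.mu.prod nu), f z.1 = 0 := by
    filter_upwards [k1, k2, hn] with z a1 a2 a3
    have b1 : f z.1 * (-1 * z.2) = -(f z.1 * z.2) := by ring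
    have b2 : f z.1 * (-Complex.I * z.2) = -(Complex.I * (f z.1 * z.2)) := by ring
    rw [b1, Complex.neg_re] at a1
    rw [b2, Complex.neg_re, Complex.I_mul_re] at a2
    have c1 : f z.1 * z.2 = 0 := by
      apply Complex.ext
      · rw [Complex.zero_re]; linarith
      · rw [Complex.zero_im]; linarith
    rcases mul_eq_zero.1 c1 with c2 | c2
    · exact c2
    · rw [c2, norm_zero] at a3
      exact absurd a3 zero_ne_one
  have h6 := Measure.ae_ae_of_ae_prod h5
  filter_upwards [h6] with p hp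
  exact hp.exists.choose_spec

end Triangle

end Vale.Agent.P099
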