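import Vale.Agent.P099.Bdl.B1
import Mathlib.MeasureTheory.Function.LpSpace.ContinuousCompMeasurePreserving
import Mathlib.Topology.Algebra.Order.Archimedean

/-!
# P099: strong continuity of measurable flows, and density of times
-/

set_option linter.all false

open MeasureTheory Set Filter Topology
open scoped ENNReal

namespace Vale.Agent.P099

/-- continuity of translation in `L¹(ℝ)` -/
lemma tendsto_translate {g : ℝ → ℝ} (hg : MemLp g 1 volume) :
    Tendsto (fun h : ℝ => ∫⁻ s, ‖g (s + h) - g s‖ₑ) (𝓝 0) (𝓝 0) := by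
  have hc : Continuous (fun h : ℝ =>
      Lp.compMeasurePreserving (fun s : ℝ => s + h) (measurePreserving_add_right volume h)
        (hg.toLp g)) := by
    have hk : Continuous (fun h : ℝ => (⟨fun s : ℝ => s + h, by fun_prop⟩ : C(ℝ, ℝ))) := by
      apply ContinuousMap.continuous_of_continuous_uncurry
      change Continuous (fun p : ℝ × ℝ => p.2 + p.1)
      fun_prop
    exact Continuous.compMeasurePreservingLp (f := fun _ : ℝ => hg.toLp g) continuous_const hk
      (fun h => measurePreserving_add_right volume h) ENNReal.one_ne_top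
  have h1 := (hc.tendsto 0).edist (tendsto_const_nhds (x := hg.toLp g))
  have h2 : edist (Lp.compMeasurePreserving (fun s : ℝ => s + (0:ℝ))
      (measurePreserving_add_right volume 0) (hg.toLp g)) (hg.toLp g) = 0 := by
    rw [Lp.toLp_compMeasurePreserving, Lp.edist_toLp_toLp]
    have : (g ∘ fun s : ℝ => s + (0:ℝ)) - g = 0 := by
      funext s; simp
    rw [this]; simp
  rw [h2] at h1
  refine h1.congr fun h => ?_
  rw [Lp.toLp_compMeasurePreserving, Lp.edist_toLp_toLp, eLpNorm_one_eq_lintegral_enorm]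
  rfl

variable {Ω : Type} [MeasurableSpace Ω]

/-- strong continuity at time `0` -/
lemma PFlow.tendsto_zero {m : Measure Ω} [IsProbabilityMeasure m] {Ψ : ℝ → Ω → Ω}
    (hΨ : PFlow m Ψ) {f : Ω → ℝ} (hf : Measurable f) {C : ℝ} (hC : ∀ q, |f q| ≤ C) :
    Tendsto (fun h : ℝ => ∫⁻ q, ‖f (Ψ h q) - f q‖ₑ ∂m) (𝓝 0) (𝓝 0) := by
  have hfΨ : Measurable (fun z : Ω × ℝ => f (Ψ z.2 z.1)) :=
    hf.comp (hΨ.meas.comp (measurable_snd.prodMk measurable_fst))
  set g : Ω → ℝ → ℝ := fun q => (Icc (-1) 2).indicator (fun s => f (Ψ s q)) with hg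
  have hgm : Measurable (fun z : Ω × ℝ => g z.1 z.2) := by
    have h1 : MeasurableSet {z : Ω × ℝ | z.2 ∈ Icc (-1 : ℝ) 2} := measurable_snd measurableSet_Icc
    have h2 : (fun z : Ω × ℝ => g z.1 z.2) =
        {z : Ω × ℝ | z.2 ∈ Icc (-1 : ℝ) 2}.indicator (fun z : Ω × ℝ => f (Ψ z.2 z.1)) := by
      funext z
      by_cases hz : z.2 ∈ Icc (-1 : ℝ) 2
      · have hz' : z ∈ {z : Ω × ℝ | z.2 ∈ Icc (-1 : ℝ) 2} := hz
        simp only [hg]
        rw [indicator_of_mem hz, indicator_of_mem hz']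
      · have hz' : z ∉ {z : Ω × ℝ | z.2 ∈ Icc (-1 : ℝ) 2} := hz
        simp only [hg]
        rw [indicator_of_notMem hz, indicator_of_notMem hz']
    rw [h2]
    exact hfΨ.indicator h1
  have hgb : ∀ q s, ‖g q s‖ ≤ (Icc (-1 : ℝ) 2).indicator (fun _ => C) s := by
    intro q s
    simp only [hg, indicator]
    split_ifs
    · exact hC _
    · simp
  have hgL : ∀ q, MemLp (g q) 1 volume := by
    intro q
    rw [memLp_one_iff_integrable]
    refine Integrable.mono' (g := (Icc (-1 : ℝ) 2).indicator (fun _ => C)) ?_ ?_ ?_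
    · rw [integrable_indicator_iff measurableSet_Icc]
      exact integrableOn_const (by simp) (by simp)
    · exact (hgm.comp (measurable_const.prodMk measurable_id)).aestronglyMeasurable
    · exact ae_of_all _ (hgb q)
  set J : ℝ → Ω → ℝ≥0∞ := fun h q => ∫⁻ s, ‖g q (s + h) - g q s‖ₑ with hJ
  have hJm : ∀ h, Measurable (J h) := by
    intro h
    have h1 : Measurable (fun z : Ω × ℝ => ‖g z.1 (z.2 + h) - g z.1 z.2‖ₑ) := by
      have h2 : Measurable (fun z : Ω × ℝ => g z.1 (z.2 + h)) :=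
        hgm.comp (measurable_fst.prodMk (measurable_snd.add_const h))
      exact (h2.sub hgm).enorm
    exact h1.lintegral_prod_right'
  have hgi : ∀ q, ∫⁻ s, ‖g q s‖ₑ ≤ ENNReal.ofReal (3 * C) := by
    intro q
    calc ∫⁻ s, ‖g q s‖ₑ ≤ ∫⁻ s, (Icc (-1 : ℝ) 2).indicator (fun _ => ENNReal.ofReal C) s := by
          apply lintegral_mono
          intro s
          have h1 := hgb q s
          show ‖g q s‖ₑ ≤ (Icc (-1 : ℝ) 2).indicator (fun _ => ENNReal.ofReal C) s
          rw [← ofReal_norm_eq_enorm]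
          by_cases hs : s ∈ Icc (-1 : ℝ) 2
          · rw [indicator_of_mem hs] at h1 ⊢
            exact ENNReal.ofReal_le_ofReal h1
          · rw [indicator_of_notMem hs] at h1 ⊢
            rw [ENNReal.ofReal_eq_zero.2 h1]
      _ = ENNReal.ofReal C * volume (Icc (-1 : ℝ) 2) := by
          rw [lintegral_indicator measurableSet_Icc, setLIntegral_const]
      _ ≤ ENNReal.ofReal (3 * C) := by
          rw [Real.volume_Icc, ← ENNReal.ofReal_mul' (by norm_num)]
          apply ENNReal.ofReal_le_ofReal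
          linarith
  have hbound : ∀ h : ℝ, ∀ q, J h q ≤ ENNReal.ofReal (3 * C) + ENNReal.ofReal (3 * C) := by
    intro h q
    have hm1 : Measurable (fun s => ‖g q (s + h)‖ₑ) :=
      (hgm.comp (measurable_const.prodMk (measurable_id.add_const h))).enorm
    calc J h q ≤ ∫⁻ s, (‖g q (s + h)‖ₑ + ‖g q s‖ₑ) := lintegral_mono fun s => enorm_sub_le
      _ = (∫⁻ s, ‖g q (s + h)‖ₑ) + ∫⁻ s, ‖g q s‖ₑ := lintegral_add_left hm1 _
      _ = (∫⁻ s, ‖g q s‖ₑ) + ∫⁻ s, ‖g q s‖ₑ := by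
          rw [lintegral_add_right_eq_self (fun s => ‖g q s‖ₑ) h]
      _ ≤ _ := add_le_add (hgi q) (hgi q)
  have hJlim : Tendsto (fun h => ∫⁻ q, J h q ∂m) (𝓝 0) (𝓝 0) := by
    have h1 := tendsto_lintegral_filter_of_dominated_convergence (μ := m) (l := 𝓝 (0:ℝ))
      (F := J) (f := fun _ => 0) (fun _ => ENNReal.ofReal (3 * C) + ENNReal.ofReal (3 * C))
      (Eventually.of_forall fun h => hJm h) (Eventually.of_forall fun h => ae_of_all _ (hbound h))
      (by
        rw [lintegral_const]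
        simp only [measure_univ, mul_one]
        exact ENNReal.add_ne_top.2 ⟨ENNReal.ofReal_ne_top, ENNReal.ofReal_ne_top⟩)
      (ae_of_all _ fun q => tendsto_translate (hgL q))
    simpa using h1
  have hle : ∀ᶠ h : ℝ in 𝓝 0, ∫⁻ q, ‖f (Ψ h q) - f q‖ₑ ∂m ≤ ∫⁻ q, J h q ∂m := by
    filter_upwards [Icc_mem_nhds (show (-1:ℝ) < 0 by norm_num) (show (0:ℝ) < 1 by norm_num)]
      with h hh
    -- for each `s`
    have h1 : ∀ s : ℝ, ∫⁻ q, ‖f (Ψ (s + h) q) - f (Ψ s q)‖ₑ ∂m = ∫⁻ q, ‖f (Ψ h q) - f q‖ₑ ∂m := by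
      intro s
      have h2 : Measurable (fun q => ‖f (Ψ h q) - f q‖ₑ) :=
        ((hf.comp (hΨ.measurable_time h)).sub hf).enorm
      rw [← (hΨ.mp s).lintegral_comp h2]
      apply lintegral_congr_ae
      filter_upwards [hΨ.add h s] with q hq
      rw [add_comm s h, hq]
    have hmeas : Measurable (fun z : ℝ × Ω => ‖f (Ψ (z.1 + h) z.2) - f (Ψ z.1 z.2)‖ₑ) := by
      have h3 : Measurable (fun z : ℝ × Ω => f (Ψ (z.1 + h) z.2)) :=
        hf.comp (hΨ.meas.comp ((measurable_fst.add_const h).prodMk measurable_snd))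
      exact (h3.sub (hf.comp hΨ.meas)).enorm
    calc ∫⁻ q, ‖f (Ψ h q) - f q‖ₑ ∂m
        = ∫⁻ s in Icc (0:ℝ) 1, (∫⁻ q, ‖f (Ψ (s + h) q) - f (Ψ s q)‖ₑ ∂m) := by
          simp only [h1]
          rw [lintegral_const]
          simp
      _ = ∫⁻ q, (∫⁻ s in Icc (0:ℝ) 1, ‖f (Ψ (s + h) q) - f (Ψ s q)‖ₑ) ∂m := by
          rw [lintegral_lintegral_swap]
          exact hmeas.aemeasurable
      _ ≤ ∫⁻ q, J h q ∂m := by
          apply lintegral_mono
          intro q
          show (∫⁻ s in Icc (0:ℝ) 1, ‖f (Ψ (s + h) q) - f (Ψ s q)‖ₑ) ≤ ∫⁻ s, ‖g q (s + h) - g q s‖ₑ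
          rw [← lintegral_indicator measurableSet_Icc]
          apply lintegral_mono
          intro s
          by_cases hs : s ∈ Icc (0:ℝ) 1
          · rw [indicator_of_mem hs]
            have h4 : s ∈ Icc (-1 : ℝ) 2 := ⟨by linarith [hs.1], by linarith [hs.2]⟩
            have h5 : s + h ∈ Icc (-1 : ℝ) 2 := ⟨by linarith [hs.1, hh.1], by linarith [hs.2, hh.2]⟩
            simp only [hg]
            rw [indicator_of_mem h4, indicator_of_mem h5]
          · rw [indicator_of_notMem hs]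
            exact bot_le
  exact tendsto_of_tendsto_of_tendsto_of_le_of_le' tendsto_const_nhds hJlim
    (Eventually.of_forall fun _ => bot_le) hle

/-- the times which leave `f` invariant -/
def invTimes (m : Measure Ω) (Ψ : ℝ → Ω → Ω) (f : Ω → ℝ) : Set ℝ :=
  {s | ∀ᵐ q ∂m, f (Ψ s q) = f q}

lemma PFlow.zero_mem {m : Measure Ω} {Ψ : ℝ → Ω → Ω} (hΨ : PFlow m Ψ) (f : Ω → ℝ) :
    (0:ℝ) ∈ invTimes m Ψ f := by
  show ∀ᵐ q ∂m, f (Ψ 0 q) = f q
  filter_upwards [hΨ.zero] with q hq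
  rw [hq]

lemma PFlow.add_mem {m : Measure Ω} {Ψ : ℝ → Ω → Ω} (hΨ : PFlow m Ψ) {f : Ω → ℝ}
    {a b : ℝ} (ha : a ∈ invTimes m Ψ f) (hb : b ∈ invTimes m Ψ f) : a + b ∈ invTimes m Ψ f := by
  have ha' := (hΨ.mp b).quasiMeasurePreserving.ae ha
  show ∀ᵐ q ∂m, f (Ψ (a + b) q) = f q
  filter_upwards [ha', hb, hΨ.add a b] with q h1 h2 h3
  rw [h3, h1, h2]

lemma PFlow.neg_mem {m : Measure Ω} {Ψ : ℝ → Ω → Ω} (hΨ : PFlow m Ψ) {f : Ω → ℝ}
    {a : ℝ} (ha : a ∈ invTimes m Ψ f) : -a ∈ invTimes m Ψ f := by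
  have ha' := (hΨ.mp (-a)).quasiMeasurePreserving.ae ha
  show ∀ᵐ q ∂m, f (Ψ (-a) q) = f q
  filter_upwards [ha', hΨ.add a (-a), hΨ.zero] with q h1 h2 h3
  rw [add_neg_cancel, h3] at h2
  rw [← h2] at h1
  exact h1.symm

/-- the subgroup of the times which leave `f` invariant -/
def PFlow.timesGroup {m : Measure Ω} {Ψ : ℝ → Ω → Ω} (hΨ : PFlow m Ψ) (f : Ω → ℝ) :
    AddSubgroup ℝ where
  carrier := invTimes m Ψ f
  zero_mem' := hΨ.zero_mem f
  add_mem' := hΨ.add_mem
  neg_mem' := hΨ.neg_mem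

lemma PFlow.isClosed_times {m : Measure Ω} [IsProbabilityMeasure m] {Ψ : ℝ → Ω → Ω}
    (hΨ : PFlow m Ψ) {f : Ω → ℝ} (hf : Measurable f) {C : ℝ} (hC : ∀ q, |f q| ≤ C) :
    IsClosed (invTimes m Ψ f) := by
  set D : ℝ → ℝ≥0∞ := fun h => ∫⁻ q, ‖f (Ψ h q) - f q‖ₑ ∂m with hD
  have hm : ∀ h, Measurable (fun q => ‖f (Ψ h q) - f q‖ₑ) := fun h =>
    ((hf.comp (hΨ.measurable_time h)).sub hf).enorm
  have hmem : ∀ s, s ∈ invTimes m Ψ f ↔ D s = 0 := by
    intro s
    rw [hD]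
    simp only
    rw [lintegral_eq_zero_iff (hm s)]
    constructor
    · intro h
      have h' : ∀ᵐ q ∂m, f (Ψ s q) = f q := h
      filter_upwards [h'] with q hq
      simp [hq]
    · intro h
      show ∀ᵐ q ∂m, f (Ψ s q) = f q
      filter_upwards [h] with q hq
      simpa [sub_eq_zero] using hq
  have hshift : ∀ s a, a ∈ invTimes m Ψ f → D (s - a) = D s := by
    intro s a ha
    rw [hD]
    simp only
    rw [← (hΨ.mp a).lintegral_comp (hm (s - a))]
    apply lintegral_congr_ae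
    have ha' : ∀ᵐ q ∂m, f (Ψ a q) = f q := ha
    filter_upwards [hΨ.add (s - a) a, ha'] with q h1 h2
    rw [sub_add_cancel] at h1
    rw [← h1, h2]
  rw [← isSeqClosed_iff_isClosed]
  intro x s hx hxs
  rw [hmem]
  have h1 : Tendsto (fun n => D (s - x n)) atTop (𝓝 0) := by
    have h2 : Tendsto (fun n => s - x n) atTop (𝓝 0) := by
      have := (tendsto_const_nhds (x := s)).sub hxs
      simpa using this
    exact (hΨ.tendsto_zero hf hC).comp h2
  have h3 : (fun n => D (s - x n)) = fun _ => D s := by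
    funext n
    exact hshift s (x n) (hx n)
  rw [h3] at h1
  exact tendsto_nhds_unique tendsto_const_nhds h1

/-- two incommensurable times are enough -/
lemma PFlow.all_times {m : Measure Ω} [IsProbabilityMeasure m] {Ψ : ℝ → Ω → Ω}
    (hΨ : PFlow m Ψ) {f : Ω → ℝ} (hf : Measurable f) {C : ℝ} (hC : ∀ q, |f q| ≤ C)
    {x y : ℝ} (hx : x ∈ invTimes m Ψ f) (hy : y ∈ invTimes m Ψ f) (hxy : Irrational (x / y))
    (s : ℝ) : s ∈ invTimes m Ψ f := by
  rcases AddSubgroup.dense_or_cyclic (hΨ.timesGroup f) with h | ⟨a, ha⟩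
  · have h1 : closure (invTimes m Ψ f) = univ := h.closure_eq
    rw [(hΨ.isClosed_times hf hC).closure_eq] at h1
    rw [h1]; trivial
  · exfalso
    have hx' : x ∈ hΨ.timesGroup f := hx
    have hy' : y ∈ hΨ.timesGroup f := hy
    rw [ha, AddSubgroup.mem_closure_singleton] at hx' hy'
    obtain ⟨k, hk⟩ := hx'
    obtain ⟨l, hl⟩ := hy'
    apply hxy
    refine ⟨(k : ℚ) / l, ?_⟩
    rw [← hk, ← hl]
    simp only [zsmul_eq_mul]
    push_cast
    by_cases ha0 : a = 0
    · exfalso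
      apply hxy
      refine ⟨0, ?_⟩
      rw [← hk, ha0]; simp
    · rw [mul_div_mul_right _ _ ha0]

end Vale.Agent.P099
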