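import Vale.Agent.P099.H819.Structure
import Vale.Agent.P099.H819.Defs

/-!
# P099: invariant functions of products with the billiard flow of an arbitrary triangle
-/

set_option linter.all false

open MeasureTheory Set Filter Topology

namespace Vale.Agent.P099

variable {Ω : Type} [MeasurableSpace Ω]

lemma MPFlow.pflow {m : Measure Ω} {Ψ : ℝ → Ω → Ω} (h : MPFlow m Ψ) : PFlow m Ψ :=
  ⟨h.measurable, h.preserving, h.add, h.zero⟩

lemma PFlow.mpflow {m : Measure Ω} {Ψ : ℝ → Ω → Ω} (h : PFlow m Ψ) : MPFlow m Ψ :=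
  ⟨h.meas, h.mp, h.add, h.zero⟩

namespace Triangle

variable (T : Triangle)

/-- the direction is uniformly distributed -/
lemma mp_dir (m : Measure Ω) [IsProbabilityMeasure m] :
    MeasurePreserving (fun z : (ℂ × ℂ) × Ω => (z.1.2, z.2)) (T.mu.prod m) (nu.prod m) := by
  have hp : IsProbabilityMeasure (ProbabilityTheory.cond (volume : Measure ℂ) T.table) :=
    ProbabilityTheory.cond_isProbabilityMeasure_of_finite T.volume_table_pos.ne'
      T.volume_table_lt_top.ne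
  have h1 : MeasurePreserving (fun p : ℂ × ℂ => p.2) T.mu nu := by
    rw [mu]
    exact measurePreserving_snd
  exact h1.prod (MeasurePreserving.id m)

/-- bounded invariant functions -/
theorem invariant_bdd {m : Measure Ω} [IsProbabilityMeasure m] {Ψ : ℝ → Ω → Ω} (hΨ : PFlow m Ψ)
    {Φ : ℝ → ℂ × ℂ → ℂ × ℂ} (hb : T.IsBilliardFlow Φ) {f : (ℂ × ℂ) × Ω → ℝ} (hf : Measurable f)
    {C : ℝ} (hC : ∀ z, |f z| ≤ C)
    (hinv : ∀ t, ∀ᵐ z ∂(T.mu.prod m), f (Φ t z.1, Ψ t z.2) = f z) :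
    ∃ g : ℂ × Ω → ℝ, Measurable g ∧ (∀ i, ∀ᵐ ω ∂(nu.prod m), g (T.refl i ω.1, ω.2) = g ω) ∧
      (∀ s : ℝ, ∀ᵐ ω ∂(nu.prod m), g (ω.1, Ψ s ω.2) = g ω) ∧
      ∀ᵐ z ∂(T.mu.prod m), f z = g (z.1.2, z.2) := by
  have hprob : IsProbabilityMeasure T.mu := T.isProbabilityMeasure_mu
  set H : ℂ → ℂ × Ω → ℝ := fun x ω => f ((x, ω.1), ω.2) with hHdef
  have hH : Bdd H := ⟨hf.comp (by fun_prop), C, fun y ω => hC _⟩
  have hb' : ∀ᵐ z ∂(T.mu.prod m), Φ 0 z.1 = z.1 ∧ T.IsTrajectory (fun t => Φ t z.1) :=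
    Measure.quasiMeasurePreserving_fst.ae hb
  have hmem' : ∀ᵐ z ∂(T.mu.prod m), z.1.1 ∈ T.table :=
    Measure.quasiMeasurePreserving_fst.ae T.ae_mem_table
  have hF : T.FreeInv m Ψ H := by
    intro t ht
    have h1 : ∀ᵐ z ∂(T.mu.prod m), z.1.1 + t • z.1.2 ∈ T.table →
        f ((z.1.1 + t • z.1.2, z.1.2), Ψ t z.2) = f z := by
      filter_upwards [hb', hmem', hinv t] with z hp hp' hi hin
      have h2 := hp.2.free T (γ := fun t => Φ t z.1) (by rw [hp.1]; exact hp') ht.le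
        (by rw [hp.1]; exact hin)
      simp only [hp.1] at h2
      rw [← h2, hi]
    exact T.ae_prod_mu_iff.mp h1
  have hB : T.BounceInv m Ψ H := by
    intro t ht i
    have h1 : ∀ᵐ z ∂(T.mu.prod m), T.E i z.1 → T.hitT i z.1 < t →
        T.R i (z.1.1 + t • z.1.2) ∈ T.table →
        f ((T.R i (z.1.1 + t • z.1.2), T.refl i z.1.2), Ψ t z.2) = f z := by
      filter_upwards [hb', hmem', hinv t] with z hp hp' hi hE hlt hin
      have h2 := hp.2.bounce T (γ := fun t => Φ t z.1) (by rw [hp.1]; exact hp') (i := i) (t := t)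
        (by rw [hp.1]; exact hE) (by rw [hp.1]; exact hlt) (by rw [hp.1]; exact hin)
      simp only [hp.1] at h2
      rw [← h2, hi]
    exact T.ae_prod_mu_iff.mp h1
  obtain ⟨g, mg, -, rg, ig, hg⟩ := T.relative_all hΨ hH hF hB
  exact ⟨g, mg, rg, ig, T.ae_prod_mu_iff.2 hg⟩

/-- invariant functions -/
theorem invariant_of {m : Measure Ω} [IsProbabilityMeasure m] {Ψ : ℝ → Ω → Ω} (hΨ : PFlow m Ψ)
    {Φ : ℝ → ℂ × ℂ → ℂ × ℂ} (hb : T.IsBilliardFlow Φ) {f : (ℂ × ℂ) × Ω → ℝ} (hf : Measurable f)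
    (hinv : ∀ t, ∀ᵐ z ∂(T.mu.prod m), f (Φ t z.1, Ψ t z.2) = f z) :
    ∃ g : ℂ × Ω → ℝ, Measurable g ∧ (∀ i, ∀ᵐ ω ∂(nu.prod m), g (T.refl i ω.1, ω.2) = g ω) ∧
      (∀ s : ℝ, ∀ᵐ ω ∂(nu.prod m), g (ω.1, Ψ s ω.2) = g ω) ∧
      ∀ᵐ z ∂(T.mu.prod m), f z = g (z.1.2, z.2) := by
  obtain ⟨g, mg, rg, ig, hg⟩ := T.invariant_bdd hΨ hb (f := fun z => Real.arctan (f z))
    (Real.continuous_arctan.measurable.comp hf) (C := Real.pi / 2) (fun z => by
      rw [abs_le]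
      exact ⟨(Real.neg_pi_div_two_lt_arctan _).le, (Real.arctan_lt_pi_div_two _).le⟩)
    (fun t => by
      filter_upwards [hinv t] with z hz
      rw [hz])
  have mtan : Measurable Real.tan := by
    have : Real.tan = fun x => Real.sin x / Real.cos x := funext Real.tan_eq_sin_div_cos
    rw [this]
    exact Real.measurable_sin.div Real.measurable_cos
  refine ⟨fun ω => Real.tan (g ω), mtan.comp mg, fun i => ?_, fun s => ?_, ?_⟩
  · filter_upwards [rg i] with ω hω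
    rw [hω]
  · filter_upwards [ig s] with ω hω
    rw [hω]
  · filter_upwards [hg] with z hz
    rw [← hz, Real.tan_arctan]

/-- the converse -/
theorem invariant_conv {m : Measure Ω} [IsProbabilityMeasure m] {Ψ : ℝ → Ω → Ω} (hΨ : PFlow m Ψ)
    {Φ : ℝ → ℂ × ℂ → ℂ × ℂ} (hb : T.IsBilliardFlow Φ) {f : (ℂ × ℂ) × Ω → ℝ}
    {g : ℂ × Ω → ℝ} (hr : ∀ i, ∀ᵐ ω ∂(nu.prod m), g (T.refl i ω.1, ω.2) = g ω)
    (hi : ∀ s : ℝ, ∀ᵐ ω ∂(nu.prod m), g (ω.1, Ψ s ω.2) = g ω)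
    (hfg : ∀ᵐ z ∂(T.mu.prod m), f z = g (z.1.2, z.2)) (t : ℝ) :
    ∀ᵐ z ∂(T.mu.prod m), f (Φ t z.1, Ψ t z.2) = f z := by
  have hprob : IsProbabilityMeasure T.mu := T.isProbabilityMeasure_mu
  obtain ⟨Θ, hΘ, hΘb, hu⟩ := T.exists_good_flow
  have h1 : MeasurePreserving (fun z : (ℂ × ℂ) × Ω => (Θ t z.1, Ψ t z.2))
      (T.mu.prod m) (T.mu.prod m) := (hΘ.mp t).prod (hΨ.mp t)
  have h2 := h1.quasiMeasurePreserving.ae hfg
  have h3 : ∀ᵐ z ∂(T.mu.prod m), Φ t z.1 = Θ t z.1 :=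
    Measure.quasiMeasurePreserving_fst.ae (hu Φ hb t)
  have h4 : ∀ᵐ z ∂(T.mu.prod m), ∃ w, (Θ t z.1).2 = T.GU w z.1.2 :=
    Measure.quasiMeasurePreserving_fst.ae (T.ae_dir_word hΘb t)
  have h5 : ∀ᵐ ω ∂(nu.prod m), ∀ w, g (T.GU w ω.1, ω.2) = g ω := by
    rw [ae_all_iff]
    exact fun w => T.word_inv hr w
  have h6 : MeasurePreserving (fun ω : ℂ × Ω => (ω.1, Ψ t ω.2)) (nu.prod m) (nu.prod m) :=
    (MeasurePreserving.id nu).prod (hΨ.mp t)
  have h7 := (T.mp_dir m).quasiMeasurePreserving.ae (h6.quasiMeasurePreserving.ae h5)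
  have h8 := (T.mp_dir m).quasiMeasurePreserving.ae (hi t)
  filter_upwards [hfg, h2, h3, h4, h7, h8] with z g1 g2 g3 g4 g5 g6
  obtain ⟨w, hw⟩ := g4
  rw [g3, g2, hw, g1]
  exact (g5 w).trans g6

/-- functions on the phase space only -/
theorem invariant_dir {Φ : ℝ → ℂ × ℂ → ℂ × ℂ} (hb : T.IsBilliardFlow Φ) {g : ℂ → ℝ}
    (hr : ∀ i, ∀ᵐ u ∂nu, g (T.refl i u) = g u) (t : ℝ) :
    ∀ᵐ p ∂T.mu, g (Φ t p).2 = g p.2 := by
  have hp : IsProbabilityMeasure (ProbabilityTheory.cond (volume : Measure ℂ) T.table) :=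
    ProbabilityTheory.cond_isProbabilityMeasure_of_finite T.volume_table_pos.ne'
      T.volume_table_lt_top.ne
  have hw : ∀ w : List (Fin 3), ∀ᵐ u ∂nu, g (T.GU w u) = g u := by
    intro w
    induction w with
    | nil => exact ae_of_all _ fun u => rfl
    | cons i w ih =>
      have h2 := (T.measurePreserving_refl i).quasiMeasurePreserving.ae ih
      filter_upwards [h2, hr i] with u g1 g2
      exact g1.trans g2
  have h1 : ∀ᵐ u ∂nu, ∀ w, g (T.GU w u) = g u := by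
    rw [ae_all_iff]; exact hw
  have h2 : ∀ᵐ p ∂T.mu, ∀ w, g (T.GU w p.2) = g p.2 := by
    rw [mu]
    exact Measure.quasiMeasurePreserving_snd.ae h1
  filter_upwards [h2, T.ae_dir_word hb t] with p g1 g2
  obtain ⟨w, hw'⟩ := g2
  rw [hw', g1 w]

end Triangle

end Vale.Agent.P099
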