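import Vale.Agent.P099.H819.Invariant

/-!
# P099: the flow of a rational triangle is not ergodic
-/

set_option linter.all false

open MeasureTheory Set Filter Topology

namespace Vale.Agent.P099

open WM4

namespace Triangle

variable (T : Triangle)

lemma rot_exp (i : Fin 3) : ∃ θ : ℝ, T.rot i = Complex.exp (2 * θ * Complex.I) ∧
    EuclideanGeometry.angle (T.P (i + 1)) (T.P i) (T.P (i + 2)) = |θ| := by
  have hd2 : T.d (i + 2) = T.P (i + 1) - T.P i := by
    have e1 : ∀ i : Fin 3, i + 2 + 2 = i + 1 := by decide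
    have e2 : ∀ i : Fin 3, i + 2 + 1 = i := by decide
    rw [d, e1, e2]
  have hd1 : T.d (i + 1) = -(T.P (i + 2) - T.P i) := by
    have e1 : ∀ i : Fin 3, i + 1 + 2 = i := by decide
    have e2 : ∀ i : Fin 3, i + 1 + 1 = i + 2 := by decide
    rw [d, e1, e2]
    ring
  set a := T.P (i + 1) - T.P i with ha
  set b := T.P (i + 2) - T.P i with hb
  have ha0 : a ≠ 0 := hd2 ▸ T.d_ne (i + 2)
  have hb0 : b ≠ 0 := by
    intro h
    apply T.d_ne (i + 1)
    rw [hd1, h, neg_zero]
  have hz0 : a / b ≠ 0 := div_ne_zero ha0 hb0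
  have hang : EuclideanGeometry.angle (T.P (i + 1)) (T.P i) (T.P (i + 2)) = |(a / b).arg| := by
    rw [EuclideanGeometry.angle, vsub_eq_sub, vsub_eq_sub]
    exact Complex.angle_eq_abs_arg ha0 hb0
  refine ⟨(a / b).arg, ?_, hang⟩
  set θ := (a / b).arg with hθ
  have h1 : T.rot i = (a / b) / (starRingEnd ℂ) (a / b) := by
    rw [rot, hd1, hd2]
    have hca : (starRingEnd ℂ) a ≠ 0 := by simpa only [ne_eq, map_eq_zero] using ha0
    have hcb : (starRingEnd ℂ) b ≠ 0 := by simpa using hb0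
    simp only [map_neg, map_div₀]
    field_simp
  have h2 : a / b = ‖a / b‖ * Complex.exp (θ * Complex.I) :=
    (Complex.norm_mul_exp_arg_mul_I (a / b)).symm
  have h3 : (starRingEnd ℂ) (a / b) = ‖a / b‖ * Complex.exp (-(θ * Complex.I)) := by
    conv_lhs => rw [h2]
    rw [map_mul, Complex.conj_ofReal, ← Complex.exp_conj]
    simp only [Complex.norm_div, Complex.ofReal_div, map_mul, Complex.conj_ofReal, Complex.conj_I, mul_neg]
  have h4 : ((‖a / b‖ : ℝ) : ℂ) ≠ 0 := by
    rw [Ne, Complex.ofReal_eq_zero, norm_eq_zero]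
    exact hz0
  have h5 : (a / b) / (starRingEnd ℂ) (a / b) =
      (‖a / b‖ * Complex.exp (θ * Complex.I)) / (‖a / b‖ * Complex.exp (-(θ * Complex.I))) :=
    congrArg₂ (· / ·) h2 h3
  rw [h1, h5, mul_div_mul_left _ _ h4, ← Complex.exp_sub]
  congr 1
  ring

lemma exists_rot_pow (i : Fin 3)
    (hi : ¬ Irrational (EuclideanGeometry.angle (T.P (i + 1)) (T.P i) (T.P (i + 2)) / Real.pi)) :
    ∃ n : ℕ, 0 < n ∧ T.rot i ^ n = 1 := by
  obtain ⟨θ, h1, h2⟩ := T.rot_exp i
  rw [h2, Irrational, not_not] at hi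
  obtain ⟨q, hq⟩ := hi
  obtain ⟨k, hk⟩ : ∃ k : ℤ, (q.den : ℝ) * θ = k * Real.pi := by
    have h3 : |θ| = q * Real.pi := by rw [hq]; field_simp
    have h4 : (q : ℝ) * q.den = q.num := by exact_mod_cast Rat.mul_den_eq_num q
    rcases abs_choice θ with h | h
    · refine ⟨q.num, ?_⟩
      rw [← h, h3, ← h4]; ring
    · refine ⟨-q.num, ?_⟩
      have h5 : θ = - (q * Real.pi) := by rw [← h3, h]; ring
      rw [h5]
      push_cast
      rw [← h4]; ring
  refine ⟨q.den, q.pos, ?_⟩
  rw [h1, ← Complex.exp_nat_mul, Complex.exp_eq_one_iff]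
  refine ⟨k, ?_⟩
  have h6 : ((q.den : ℂ)) * θ = k * Real.pi := by exact_mod_cast hk
  linear_combination 2 * Complex.I * h6

/-- an invariant function of the direction for a rational triangle -/
lemma exists_dir_inv (hT : ¬ T.IsIrrational) : ∃ (N : ℕ) (c : ℂ), 0 < N ∧ ‖c‖ = 1 ∧
    ∀ i u, (c * (T.refl i u) ^ N).re = (c * u ^ N).re := by
  have h1 : ∀ i, ∃ n : ℕ, 0 < n ∧ T.rot i ^ n = 1 := by
    intro i
    apply T.exists_rot_pow
    intro h
    exact hT ⟨i, h⟩
  choose n hn0 hn using h1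
  set N : ℕ := n 0 * n 1 * n 2 with hN
  have hN0 : 0 < N := Nat.mul_pos (Nat.mul_pos (hn0 0) (hn0 1)) (hn0 2)
  have hrot : ∀ i, T.rot i ^ N = 1 := by
    intro i
    have hdvd : n i ∣ N := by
      fin_cases i
      · show n 0 ∣ N
        exact ⟨n 1 * n 2, by simp only [hN]; ring⟩
      · show n 1 ∣ N
        exact ⟨n 0 * n 2, by simp only [hN]; ring⟩
      · show n 2 ∣ N
        exact ⟨n 0 * n 1, by simp only [hN]; ring⟩
    obtain ⟨r, hr⟩ := hdvd
    rw [hr, pow_mul, hn, one_pow]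
  set e : Fin 3 → ℂ := fun i => T.d i / (starRingEnd ℂ) (T.d i) with he
  have hc0 : ∀ i, (starRingEnd ℂ) (T.d i) ≠ 0 := fun i => by
    simpa only [ne_eq, map_eq_zero] using T.d_ne i
  have he0 : ∀ i, e i ≠ 0 := fun i => div_ne_zero (T.d_ne i) (hc0 i)
  have hen : ∀ i, ‖e i‖ = 1 := fun i => by
    simp only [he]
    rw [norm_div, RCLike.norm_conj, div_self (norm_ne_zero_iff.2 (T.d_ne i))]
  have hstep : ∀ i, e (i + 2) ^ N = e (i + 1) ^ N := by
    intro i
    have h2 : T.rot i = e (i + 2) / e (i + 1) := by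
      simp only [he, rot]
      have := T.d_ne (i + 1)
      have := hc0 (i + 1)
      have := hc0 (i + 2)
      field_simp
    have h3 := hrot i
    rw [h2, div_pow, div_eq_one_iff_eq (pow_ne_zero _ (he0 _))] at h3
    exact h3
  have heq : ∀ i, e i ^ N = e 0 ^ N := by
    intro i
    have a0 : e 2 ^ N = e 1 ^ N := hstep 0
    have a1 : e 0 ^ N = e 2 ^ N := hstep 1
    fin_cases i
    · rfl
    · show e 1 ^ N = e 0 ^ N
      rw [a1, a0]
    · show e 2 ^ N = e 0 ^ N
      rw [a1]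
  obtain ⟨z, hz⟩ := IsAlgClosed.exists_pow_nat_eq (e 0 ^ N) (n := 2) (by norm_num)
  have hzn : ‖z‖ = 1 := by
    have h4 : ‖z‖ ^ 2 = 1 := by rw [← norm_pow, hz, norm_pow, hen, one_pow]
    exact (pow_eq_one_iff_of_nonneg (norm_nonneg _) (by norm_num)).1 h4
  have hzc : (starRingEnd ℂ) z * z = 1 := by
    rw [mul_comm, Complex.mul_conj, Complex.normSq_eq_norm_sq, hzn]; simp
  refine ⟨N, (starRingEnd ℂ) z, hN0, by rw [RCLike.norm_conj, hzn], fun i u => ?_⟩
  have h5 : (starRingEnd ℂ) z * (T.refl i u) ^ N = (starRingEnd ℂ) ((starRingEnd ℂ) z * u ^ N) := by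
    rw [T.refl_eq, mul_pow]
    have h6 : (T.d i / (starRingEnd ℂ) (T.d i)) ^ N = z ^ 2 := by rw [hz]; exact heq i
    rw [h6, map_mul, Complex.conj_conj, map_pow]
    linear_combination z * ((starRingEnd ℂ) u) ^ N * hzc
  rw [h5, Complex.conj_re]

/-- The flow of a rational triangle is not ergodic: a direction dependent set. -/
theorem exists_inv_set (hT : ¬ T.IsIrrational) : ∃ A : Set (ℂ × ℂ), MeasurableSet A ∧
    T.mu A ≠ 0 ∧ T.mu A ≠ 1 ∧ ∀ Φ : ℝ → ℂ × ℂ → ℂ × ℂ, T.IsBilliardFlow Φ →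
      ∀ t, T.mu (symmDiff (Φ t ⁻¹' A) A) = 0 := by
  have hprob : IsProbabilityMeasure T.mu := T.isProbabilityMeasure_mu
  obtain ⟨N, c, hN, hc, hinv⟩ := T.exists_dir_inv hT
  set g : ℂ → ℝ := fun u => (c * u ^ N).re with hg
  have mg : Measurable g := by
    have : Continuous g := by
      simp only [hg]; fun_prop
    exact this.measurable
  set A : Set (ℂ × ℂ) := {p | 0 < g p.2} with hA
  have hAm : MeasurableSet A := measurableSet_lt measurable_const (mg.comp measurable_snd)
  have hdir : MeasurePreserving (fun p : ℂ × ℂ => p.2) T.mu nu := by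
    have hp : IsProbabilityMeasure (ProbabilityTheory.cond (volume : Measure ℂ) T.table) :=
      ProbabilityTheory.cond_isProbabilityMeasure_of_finite T.volume_table_pos.ne'
        T.volume_table_lt_top.ne
    rw [mu]
    exact measurePreserving_snd
  have hgm : MeasurableSet {u : ℂ | 0 < g u} := measurableSet_lt measurable_const mg
  have hmuA : T.mu A = nu {u : ℂ | 0 < g u} := by
    rw [← hdir.measure_preimage hgm.nullMeasurableSet]
    rfl
  -- rotations
  have hroot : ∀ w : ℂ, ‖w‖ = 1 → ∃ ζ : ℂ, ‖ζ‖ = 1 ∧ ζ ^ N = w := by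
    intro w hw
    obtain ⟨ζ, hζ⟩ := IsAlgClosed.exists_pow_nat_eq w (n := N) hN
    refine ⟨ζ, ?_, hζ⟩
    have h4 : ‖ζ‖ ^ N = 1 := by rw [← norm_pow, hζ, hw]
    exact (pow_eq_one_iff_of_nonneg (norm_nonneg _) hN.ne').1 h4
  have hprobnu : IsProbabilityMeasure nu := inferInstance
  refine ⟨A, hAm, ?_, ?_, ?_⟩
  · intro h0
    rw [hmuA] at h0
    have h1 : ∀ᵐ u ∂nu, ¬ 0 < g u := by
      rw [ae_iff]
      simpa using h0
    have hrotate : ∀ w : ℂ, ‖w‖ = 1 → ∀ᵐ u ∂nu, ¬ 0 < (c * (w * u ^ N)).re := by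
      intro w hw
      obtain ⟨ζ, hζ1, hζ2⟩ := hroot w hw
      have h2 := (measurePreserving_mul hζ1).quasiMeasurePreserving.ae h1
      filter_upwards [h2] with u hu
      simp only [hg, mul_pow, hζ2] at hu
      exact hu
    have a1 := hrotate (-1) (by simp)
    have a2 := hrotate Complex.I (by simp)
    have a3 := hrotate (-Complex.I) (by simp)
    obtain ⟨u, b0, b1, b2, b3, b4⟩ := (h1.and (a1.and (a2.and (a3.and ae_norm)))).exists
    have hz : c * u ^ N = 0 := by
      apply Complex.ext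
      · simp only [hg] at b0
        have e1 : c * (-1 * u ^ N) = -(c * u ^ N) := by ring
        rw [e1, Complex.neg_re] at b1
        simp only [Complex.zero_re]
        linarith
      · have e2 : c * (Complex.I * u ^ N) = Complex.I * (c * u ^ N) := by ring
        have e3 : c * (-Complex.I * u ^ N) = -(Complex.I * (c * u ^ N)) := by ring
        rw [e2, Complex.I_mul_re] at b2
        rw [e3, Complex.neg_re, Complex.I_mul_re] at b3
        simp only [Complex.zero_im]
        linarith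
    have hn : ‖c * u ^ N‖ = 1 := by rw [norm_mul, norm_pow, b4, hc, one_pow, mul_one]
    rw [hz, norm_zero] at hn
    exact zero_ne_one hn
  · intro h0
    rw [hmuA] at h0
    have h1 : ∀ᵐ u ∂nu, 0 < g u := by
      have := (prob_compl_eq_zero_iff hgm).2 h0
      rw [ae_iff]
      exact this
    obtain ⟨ζ, hζ1, hζ2⟩ := hroot (-1) (by simp)
    have h2 := (measurePreserving_mul hζ1).quasiMeasurePreserving.ae h1
    obtain ⟨u, b0, b1⟩ := (h1.and h2).exists
    simp only [hg, mul_pow, hζ2] at b0 b1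
    have e1 : c * (-1 * u ^ N) = -(c * u ^ N) := by ring
    rw [e1, Complex.neg_re] at b1
    linarith
  · intro Φ hΦ t
    have h1 := T.invariant_dir hΦ (g := g) (fun i => ae_of_all _ fun u => hinv i u) t
    rw [measure_symmDiff_eq_zero_iff]
    filter_upwards [h1] with p hp
    apply propext
    show 0 < g (Φ t p).2 ↔ 0 < g p.2
    rw [hp]

end Triangle

end Vale.Agent.P099
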