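import Vale.Agent.P099.H819.Flow

/-!
# P099: invariant functions of the product of the billiard flow of an arbitrary triangle with an
arbitrary measure preserving flow
-/

set_option linter.all false

open MeasureTheory Set Filter Topology

namespace Vale.Agent.P099

variable {Ω : Type} [MeasurableSpace Ω]

open WM4

/-- a nonzero linear form vanishes on a null set of directions -/
lemma ae_dt_ne {w : ℂ} (hw : w ≠ 0) : ∀ᵐ u ∂nu, dt w u ≠ 0 := by
  have hwc : (starRingEnd ℂ) w ≠ 0 := by simpa using hw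
  obtain ⟨z, hz⟩ : ∃ z : ℂ, z * z = -w / (starRingEnd ℂ) w := by
    obtain ⟨z, hz⟩ := IsAlgClosed.exists_pow_nat_eq (-w / (starRingEnd ℂ) w) (n := 2) (by norm_num)
    exact ⟨z, by rw [← hz]; ring⟩
  have h1 : ∀ᵐ u ∂nu, u ≠ z := by
    rw [ae_iff]; simpa only [ne_eq, Decidable.not_not, ofPred_eq_eq_singleton] using nu_singleton z
  have h2 : ∀ᵐ u ∂nu, u ≠ -z := by
    rw [ae_iff]; simpa only [ne_eq, Decidable.not_not, ofPred_eq_eq_singleton] using nu_singleton (-z)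
  filter_upwards [ae_norm, h1, h2] with u hu hu1 hu2 h0
  have hcu : (starRingEnd ℂ) u * u = 1 := by
    rw [mul_comm, Complex.mul_conj, Complex.normSq_eq_norm_sq, hu]; simp
  have h3 : (starRingEnd ℂ) w * u + w * (starRingEnd ℂ) u = 0 := by
    have h4 : (starRingEnd ℂ) w * u + w * (starRingEnd ℂ) u = ((2 * dt w u : ℝ) : ℂ) := by
      apply Complex.ext <;> simp [dt] <;> ring
    rw [h4, h0]; simp
  have h5 : (u - z) * (u + z) = 0 := by
    have h6 : (starRingEnd ℂ) w * ((u - z) * (u + z)) = 0 := by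
      have h7 : (starRingEnd ℂ) w * (z * z) = -w := by
        rw [hz]; field_simp
      linear_combination u * h3 - w * hcu - h7
    exact (mul_eq_zero.1 h6).resolve_left hwc
  rcases mul_eq_zero.1 h5 with h | h
  · exact hu1 (sub_eq_zero.1 h)
  · exact hu2 (eq_neg_of_add_eq_zero_left h)

/-- `dt` and multiplication by a unit complex number -/
lemma dt_mul_unit {c : ℂ} (hc : ‖c‖ = 1) (w u : ℂ) : dt w (c * u) = dt (c⁻¹ * w) u := by
  have h1 : c⁻¹ = (starRingEnd ℂ) c := by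
    rw [Complex.inv_def, Complex.normSq_eq_norm_sq, hc]; simp
  rw [h1]
  simp only [dt, Complex.mul_re, Complex.mul_im, Complex.conj_re, Complex.conj_im]
  ring

/-- composition of times, inside a measurable function -/
lemma ae_add_shift {m : Measure Ω} [IsProbabilityMeasure m] {Ψ : ℝ → Ω → Ω} (hΨ : PFlow m Ψ)
    {F : ℂ × Ω → ℝ} (hF : Measurable F) {A : ℂ → ℂ} (hA : Measurable A) {s t : ℂ → ℝ}
    (hs : Measurable s) (ht : Measurable t) :
    ∀ᵐ ω ∂(nu.prod m), F (A ω.1, Ψ (s ω.1 + t ω.1) ω.2) = F (A ω.1, Ψ (s ω.1) (Ψ (t ω.1) ω.2)) := by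
  have hm1 : Measurable fun ω : ℂ × Ω => F (A ω.1, Ψ (s ω.1 + t ω.1) ω.2) :=
    hF.comp ((hA.comp measurable_fst).prodMk (hΨ.meas.comp
      (((hs.comp measurable_fst).add (ht.comp measurable_fst)).prodMk measurable_snd)))
  have hm2 : Measurable fun ω : ℂ × Ω => F (A ω.1, Ψ (s ω.1) (Ψ (t ω.1) ω.2)) :=
    hF.comp ((hA.comp measurable_fst).prodMk (hΨ.meas.comp
      ((hs.comp measurable_fst).prodMk (hΨ.meas.comp
        ((ht.comp measurable_fst).prodMk measurable_snd)))))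
  refine (Measure.ae_prod_mem_iff_ae_ae_mem (measurableSet_eq_fun hm1 hm2)).2 ?_
  refine ae_of_all _ fun u => ?_
  filter_upwards [hΨ.add (s u) (t u)] with q hq
  show F (A u, Ψ (s u + t u) q) = F (A u, Ψ (s u) (Ψ (t u) q))
  rw [hq]

/-- the relation `F (A u, Ψ (s u) q) = F (u, q)` -/
def RelA (m : Measure Ω) (Ψ : ℝ → Ω → Ω) (F : ℂ × Ω → ℝ) (A : ℂ → ℂ) (s : ℂ → ℝ) : Prop :=
  ∀ᵐ ω ∂(nu.prod m), F (A ω.1, Ψ (s ω.1) ω.2) = F ω

lemma RelA.comp {m : Measure Ω} [IsProbabilityMeasure m] {Ψ : ℝ → Ω → Ω} (hΨ : PFlow m Ψ)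
    {F : ℂ × Ω → ℝ} (hF : Measurable F) {A B : ℂ → ℂ} (hA : MeasurePreserving A nu nu)
    (hB : Measurable B) {s t : ℂ → ℝ} (hs : Measurable s) (ht : Measurable t)
    (h1 : RelA m Ψ F A s) (h2 : RelA m Ψ F B t) :
    RelA m Ψ F (fun u => B (A u)) (fun u => t (A u) + s u) := by
  have hJ := mp_shear hΨ hA hs
  have h3 := hJ.quasiMeasurePreserving.ae h2
  have h4 := ae_add_shift hΨ hF (A := fun u => B (A u)) (hB.comp hA.measurable)
    (s := fun u => t (A u)) (ht.comp hA.measurable) hs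
  have h1' : ∀ᵐ ω ∂(nu.prod m), F (A ω.1, Ψ (s ω.1) ω.2) = F ω := h1
  filter_upwards [h1', h3, h4] with ω g1 g2 g3
  rw [g3]
  exact g2.trans g1

lemma RelA.congr {m : Measure Ω} {Ψ : ℝ → Ω → Ω}
    {F : ℂ × Ω → ℝ} {A B : ℂ → ℂ} {s t : ℂ → ℝ} (h1 : RelA m Ψ F A s)
    (hAB : ∀ u, A u = B u) (hst : ∀ u, s u = t u) : RelA m Ψ F B t := by
  have : A = B := funext hAB
  subst this
  have : s = t := funext hst
  subst this
  exact h1

namespace Triangle

variable (T : Triangle)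

/-- the rotations at the vertices are nontrivial -/
lemma rot_ne_one (i : Fin 3) : T.rot i ≠ 1 := by
  intro h
  -- the reflections `i + 1`, `i + 2` would coincide
  have h1 : ∀ u, T.refl (i + 2) (T.refl (i + 1) u) = u := by
    intro u; rw [T.refl_refl_eq_rot, h, one_mul]
  have h2 : ∀ u, T.refl (i + 1) u = T.refl (i + 2) u := by
    intro u
    rw [← T.refl_refl (i + 2) (T.refl (i + 1) u), h1]
  -- apply it to the vector from the common vertex
  have hd1 : ∀ i : Fin 3, i + 1 ≠ i + 2 := by decide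
  have hd2 : ∀ i : Fin 3, i + 2 ≠ i := by decide
  have hd3 : ∀ i : Fin 3, i + 1 ≠ i := by decide
  have hf1 : i + 1 ≠ i + 2 := hd1 i
  -- the point `P (i + 1)` is fixed by `R (i + 2)` but not by `R (i + 1)`
  have h3 : T.R (i + 2) (T.P (i + 1)) = T.P (i + 1) := by
    apply T.R_P_other
    exact hf1.symm
  have h4 : T.R (i + 2) (T.P i) = T.P i := by
    apply T.R_P_other
    exact hd2 i
  have h5 : T.R (i + 1) (T.P i) = T.P i := by
    apply T.R_P_other
    exact hd3 i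
  apply T.R_P_ne (i + 1)
  have h6 : T.R (i + 1) (T.P (i + 1)) - T.R (i + 1) (T.P i) = T.refl (i + 1) (T.P (i + 1) - T.P i) :=
    T.refl_R_sub _ _ _
  have h7 : T.R (i + 2) (T.P (i + 1)) - T.R (i + 2) (T.P i) = T.refl (i + 2) (T.P (i + 1) - T.P i) :=
    T.refl_R_sub _ _ _
  rw [h5, h2, ← h7, h3, h4] at h6
  rw [sub_eq_zero]
  exact sub_left_inj.1 h6

/-- there is a vertex whose angle is not a right angle -/
lemma exists_rot_ne_neg_one : ∃ k, T.rot k ≠ 1 ∧ T.rot k ≠ -1 := by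
  by_contra hcon
  push Not at hcon
  have h0 := hcon 0 (T.rot_ne_one 0)
  have h1 := hcon 1 (T.rot_ne_one 1)
  have h2 := hcon 2 (T.rot_ne_one 2)
  have hprod : T.rot 0 * T.rot 1 * T.rot 2 = 1 := by
    have d0 := T.d_ne 0
    have d1 := T.d_ne 1
    have d2 := T.d_ne 2
    have c0 : (starRingEnd ℂ) (T.d 0) ≠ 0 := by simpa using d0
    have c1 : (starRingEnd ℂ) (T.d 1) ≠ 0 := by simpa using d1
    have c2 : (starRingEnd ℂ) (T.d 2) ≠ 0 := by simpa using d2
    have e1 : (0 : Fin 3) + 2 = 2 := rfl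
    have e2 : (0 : Fin 3) + 1 = 1 := rfl
    have e3 : (1 : Fin 3) + 2 = 0 := rfl
    have e4 : (1 : Fin 3) + 1 = 2 := rfl
    have e5 : (2 : Fin 3) + 2 = 1 := rfl
    have e6 : (2 : Fin 3) + 1 = 0 := rfl
    simp only [rot, e1, e2, e3, e4, e5, e6]
    field_simp
  rw [h0, h1, h2] at hprod
  norm_num at hprod

end Triangle

end Vale.Agent.P099
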