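import Vale.Agent.P099.H819.AllTri

/-!
# P099: the structure theorem for all triangles, second part
-/

set_option linter.all false

open MeasureTheory Set Filter Topology

namespace Vale.Agent.P099

variable {Ω : Type} [MeasurableSpace Ω]

open WM4

namespace Triangle

variable (T : Triangle)

/-- For EVERY triangle: the bounded invariant functions of the product of the billiard flow with
any measure preserving flow are functions of the direction and of the second factor, invariant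
under the reflections in the sides and under the second flow. -/
theorem relative_all {m : Measure Ω} [IsProbabilityMeasure m] {Ψ : ℝ → Ω → Ω} (hΨ : PFlow m Ψ)
    {H : ℂ → ℂ × Ω → ℝ} (hH : Bdd H) (hF : T.FreeInv m Ψ H) (hB : T.BounceInv m Ψ H) :
    ∃ F : ℂ × Ω → ℝ, Measurable F ∧ (∃ C, ∀ ω, |F ω| ≤ C) ∧
      (∀ i, ∀ᵐ ω ∂(nu.prod m), F (T.refl i ω.1, ω.2) = F ω) ∧
      (∀ s : ℝ, ∀ᵐ ω ∂(nu.prod m), F (ω.1, Ψ s ω.2) = F ω) ∧
      ∀ᵐ p ∂((volume.restrict T.table).prod (nu.prod m)), H p.1 p.2 = F p.2 := by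
  obtain ⟨k, hk1, hk2⟩ := T.exists_rot_ne_neg_one
  obtain ⟨F, hFm, ⟨C, hC⟩, hFH⟩ := T.exists_F hΨ hH hF
    (fun φ h1 h2 h3 => T.weakY hΨ hH hF hB φ h1 h2 h3) (T.P k)
  have mdt : ∀ w : ℂ, Measurable fun u : ℂ => dt w u := fun w =>
    measurable_dt.comp (measurable_const.prodMk measurable_id)
  have hR : ∀ i, RelA m Ψ F (T.refl i) (fun u => dt (T.R i (T.P k) - T.P k) u) := fun i =>
    T.F_refl hΨ hH hB (T.P k) hFm hFH i
  have hall := T.all_times_of_rel hΨ hFm hC hk1 hk2 hR
  have hinv : ∀ s : ℝ, ∀ᵐ ω ∂(nu.prod m), F (ω.1, Ψ s ω.2) = F ω := by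
    intro s
    have hm1 : Measurable fun ω : ℂ × Ω => F (ω.1, Ψ s ω.2) :=
      hFm.comp (measurable_fst.prodMk (hΨ.meas.comp (measurable_const.prodMk measurable_snd)))
    refine (Measure.ae_prod_mem_iff_ae_ae_mem (measurableSet_eq_fun hm1 hFm)).2 ?_
    filter_upwards [hall] with u hu
    exact hu s
  refine ⟨F, hFm, ⟨C, hC⟩, fun i => ?_, hinv, ?_⟩
  · -- reflections
    have h1 : ∀ᵐ u ∂nu, ∀ s : ℝ, ∀ᵐ q ∂m, F (T.refl i u, Ψ s q) = F (T.refl i u, q) :=
      (T.measurePreserving_refl i).quasiMeasurePreserving.ae hall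
    have h2 : ∀ᵐ ω ∂(nu.prod m), F (T.refl i ω.1, Ψ (dt (T.R i (T.P k) - T.P k) ω.1) ω.2) =
        F (T.refl i ω.1, ω.2) := by
      have hmr : Measurable fun ω : ℂ × Ω => T.refl i ω.1 :=
        (T.continuous_refl i).measurable.comp measurable_fst
      have hm1 : Measurable fun ω : ℂ × Ω =>
          F (T.refl i ω.1, Ψ (dt (T.R i (T.P k) - T.P k) ω.1) ω.2) :=
        hFm.comp (hmr.prodMk (hΨ.meas.comp (((mdt _).comp measurable_fst).prodMk measurable_snd)))
      have hm2 : Measurable fun ω : ℂ × Ω => F (T.refl i ω.1, ω.2) :=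
        hFm.comp (hmr.prodMk measurable_snd)
      refine (Measure.ae_prod_mem_iff_ae_ae_mem (measurableSet_eq_fun hm1 hm2)).2 ?_
      filter_upwards [h1] with u hu
      exact hu _
    have h3 : ∀ᵐ ω ∂(nu.prod m), F (T.refl i ω.1, Ψ (dt (T.R i (T.P k) - T.P k) ω.1) ω.2) = F ω :=
      hR i
    filter_upwards [h2, h3] with ω g1 g2
    rw [← g1, g2]
  · -- straightening back
    have hSh : MeasurePreserving (fun p : ℂ × (ℂ × Ω) =>
        (p.1, (p.2.1, Ψ (-dt (p.1 - T.P k) p.2.1) p.2.2)))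
        ((volume.restrict T.table).prod (nu.prod m))
        ((volume.restrict T.table).prod (nu.prod m)) := by
      refine MeasurePreserving.skew_product
        (g := fun x (ω : ℂ × Ω) => (ω.1, Ψ (-dt (x - T.P k) ω.1) ω.2)) (MeasurePreserving.id _) ?_ ?_
      · have h1 : Measurable fun p : ℂ × (ℂ × Ω) => dt (p.1 - T.P k) p.2.1 :=
          measurable_dt.comp ((measurable_fst.sub_const _).prodMk
            (measurable_fst.comp measurable_snd))
        exact (measurable_fst.comp measurable_snd).prodMk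
          (hΨ.meas.comp (h1.neg.prodMk (measurable_snd.comp measurable_snd)))
      · exact ae_of_all _ fun x =>
          (mp_shear hΨ (MeasurePreserving.id nu) (mdt (x - T.P k)).neg).map_eq
    have h1 := hSh.quasiMeasurePreserving.ae hFH
    have hmd : Measurable fun p : ℂ × (ℂ × Ω) => dt (p.1 - T.P k) p.2.1 :=
      measurable_dt.comp ((measurable_fst.sub_const _).prodMk (measurable_fst.comp measurable_snd))
    have hmP : Measurable fun p : ℂ × (ℂ × Ω) => Ψ (-dt (p.1 - T.P k) p.2.1) p.2.2 :=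
      hΨ.meas.comp (hmd.neg.prodMk (measurable_snd.comp measurable_snd))
    have h2 : ∀ᵐ p ∂((volume.restrict T.table).prod (nu.prod m)),
        H p.1 (p.2.1, Ψ (dt (p.1 - T.P k) p.2.1) (Ψ (-dt (p.1 - T.P k) p.2.1) p.2.2)) =
          H p.1 p.2 := by
      have hm1 : Measurable fun p : ℂ × (ℂ × Ω) =>
          H p.1 (p.2.1, Ψ (dt (p.1 - T.P k) p.2.1) (Ψ (-dt (p.1 - T.P k) p.2.1) p.2.2)) :=
        hH.1.comp (measurable_fst.prodMk ((measurable_fst.comp measurable_snd).prodMk
          (hΨ.meas.comp (hmd.prodMk hmP))))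
      have hms := measurableSet_eq_fun hm1 hH.1
      refine (Measure.ae_prod_mem_iff_ae_ae_mem hms).2 (ae_of_all _ fun x => ?_)
      refine (Measure.ae_prod_mem_iff_ae_ae_mem (measurable_prodMk_left hms)).2
        (ae_of_all _ fun u => ?_)
      filter_upwards [hΨ.add (dt (x - T.P k) u) (-dt (x - T.P k) u), hΨ.zero] with q h3 h4
      show H x (u, Ψ (dt (x - T.P k) u) (Ψ (-dt (x - T.P k) u) q)) = H x (u, q)
      rw [← h3, add_neg_cancel, h4]
    have h3 : ∀ᵐ p ∂((volume.restrict T.table).prod (nu.prod m)),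
        F (p.2.1, Ψ (-dt (p.1 - T.P k) p.2.1) p.2.2) = F p.2 := by
      have hms := measurableSet_eq_fun (hFm.comp ((measurable_fst.comp
        (measurable_snd (α := ℂ) (β := ℂ × Ω))).prodMk hmP))
        (hFm.comp (measurable_snd (α := ℂ) (β := ℂ × Ω)))
      refine (Measure.ae_prod_mem_iff_ae_ae_mem hms).2 (ae_of_all _ fun x => ?_)
      refine (Measure.ae_prod_mem_iff_ae_ae_mem (measurable_prodMk_left hms)).2 ?_
      filter_upwards [hall] with u hu
      exact hu (-dt (x - T.P k) u)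
    filter_upwards [h1, h2, h3] with p g1 g2 g3
    rw [← g2, g1, g3]

/-- the direction after time `t` is obtained from the initial one by finitely many reflections -/
lemma ae_dir_word {Φ : ℝ → ℂ × ℂ → ℂ × ℂ} (hΦ : T.IsBilliardFlow Φ) (t : ℝ) :
    ∀ᵐ p ∂T.mu, ∃ w, (Φ t p).2 = T.GU w p.2 := by
  obtain ⟨Ψ, hΨ, hΨb, hu⟩ := T.exists_good_flow
  have h1 : ∀ᵐ p ∂T.mu, p.1 ∈ T.table ∧ T.Good p ∧ T.Good (flip p) := by
    rw [mu, ProbabilityTheory.cond, Measure.prod_smul_left]
    exact Measure.ae_smul_measure T.ae_good _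
  have hb : T.IsBilliardFlow T.traj := by
    filter_upwards [h1] with p hp
    refine ⟨?_, isTrajectory_traj hp.1 hp.2.1 hp.2.2⟩
    rw [traj, if_pos le_rfl, hp.2.1.fw_small le_rfl (hp.2.1.tau_pos 0)]; simp
  filter_upwards [h1, hu Φ hΦ t, hu T.traj hb t] with p hp g1 g2
  obtain ⟨w, hw⟩ := exists_word_traj hp.2.1 hp.2.2 t
  refine ⟨w, ?_⟩
  rw [g1, ← g2, hw]
  rfl

/-- invariance under the three reflections gives invariance under all words -/
lemma word_inv {m : Measure Ω} [IsProbabilityMeasure m] {F : ℂ × Ω → ℝ}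
    (hF : ∀ i, ∀ᵐ ω ∂(nu.prod m), F (T.refl i ω.1, ω.2) = F ω) (w : List (Fin 3)) :
    ∀ᵐ ω ∂(nu.prod m), F (T.GU w ω.1, ω.2) = F ω := by
  induction w with
  | nil => exact ae_of_all _ fun ω => rfl
  | cons i w ih =>
    have h1 : MeasurePreserving (fun ω : ℂ × Ω => (T.refl i ω.1, ω.2)) (nu.prod m) (nu.prod m) :=
      (T.measurePreserving_refl i).prod (MeasurePreserving.id m)
    have h2 := h1.quasiMeasurePreserving.ae ih
    filter_upwards [h2, hF i] with ω g1 g2
    show F (T.GU w (T.refl i ω.1), ω.2) = F ω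
    exact g1.trans g2

end Triangle

end Vale.Agent.P099
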